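import Vale.Agent.P354XW.Sob
import Vale.Agent.P354XI.Inst
import Vale.Agent.P354YF.Hardy
import Vale.Agent.P354XD.Fun
import Vale.Agent.P354XR.Su

/-!
The Sobolev inequality in the ring of smooth functions on an open set, and the chart (t, r, xi).
-/

open scoped ContDiff
open MeasureTheory Set Module Complex

namespace Vale.Agent.P354XW

open Vale.Agent.P354XG Vale.Agent.P354XI Vale.Agent.P354YF Vale.Agent.P354XD Vale.Agent.P354XR

section abs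
variable {A : Type} [CommRing A] [Algebra ℂ A] {ι : Type} [Fintype ι] {B : Ibp A} {X : ι → Der A}

theorem qq_jet (x : B.Pt) (n : ℕ) (f : A) :
    qq B X x n f = jet (fun j u => X j u) (fun u => B.md x u ^ 2) n f := by
  induction n generalizing f with
  | zero => rfl
  | succ n ih => simp only [qq, jet_succ, ih]

theorem nj_jet (w : A) (n : ℕ) (f : A) :
    nj B X w n f = jet (fun j u => X j u) (B.nsq w) n f := by
  induction n generalizing f with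
  | zero => rfl
  | succ n ih => simp only [nj_succ, jet_succ, ih]

theorem qq_rew (be : A) (x : (B.rew be).Pt) (n : ℕ) (f : A) :
    qq (B.rew be) X x n f = qq B X x.1 n f := by
  rw [qq_jet, qq_jet]; rfl

theorem nj_rew (be w : A) (n : ℕ) (f : A) : nj (B.rew be) X w n f = nj B X (be * w) n f := by
  rw [nj, nj, Ibp.J, Ibp.J, Ibp.rew_I, mul_assoc]; rfl

end abs

section box
variable {E : Type} [NormedAddCommGroup E] [NormedSpace ℝ E] [MeasurableSpace E] [BorelSpace E]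
  [FiniteDimensional ℝ E] (μ : Measure E) [μ.IsAddHaarMeasure]

omit [FiniteDimensional ℝ E] in
theorem qq_box {O : Set E} (hO : IsOpen O) {ι : Type} [Fintype ι] (X : ι → Der (Sm (on O)))
    (x : (box μ hO).Pt) (n : ℕ) (f : Sm (on O)) :
    qq (box μ hO) X x n f = jq (fun j u => X j u) fv n f x.1 := qq_jet x n f

theorem nsq_box {O : Set E} (hO : IsOpen O) {w : Sm (on O)} (hw : (box μ hO).Wt w)
    (u : Sm (on O)) : (fun y => (fv w y).re * ‖fv u y‖ ^ 2) = fun y => (fv (w * (u * cj u)) y).re :=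
  funext fun y => by
    by_cases c : y ∈ O
    · exact ((box_is μ hO).val_nsq hw.re ⟨y, c⟩ u).symm
    · simp [fv_out _ c]

/-- The Sobolev inequality for jets. -/
theorem sob_box {d : ℕ} (b : Basis (Fin d) ℝ E) : ∃ C : ℝ, 0 < C ∧ ∀ {O : Set E} (hO : IsOpen O)
    {ι : Type} [Fintype ι] (X : ι → Der (Sm (on O))) (W : Sm (on O) → Prop) (κ m : ℝ)
    (v : Fin d → E) (p : (box μ hO).Pt) (w : Sm (on O)), 0 ≤ κ → 0 ≤ m →
    (∀ j u, W u → W (X j u)) → bx p.1 v ⊆ O →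
    (∀ u, W u → ∀ k, ∀ y : (box μ hO).Pt, y.1 ∈ bx p.1 v →
      (box μ hO).md y (pd (v k) u) ^ 2 ≤ κ * qq (box μ hO) X y 1 u) → (box μ hO).Wt w →
    (∀ y : (box μ hO).Pt, y.1 ∈ bx p.1 v → m ≤ (box μ hO).val y w) → ∀ n f, W f →
      m * |b.det v| * qq (box μ hO) X p n f ≤ C * (2 + κ) ^ d * nj (box μ hO) X w (d + n) f := by
  obtain ⟨C, hC, h⟩ := par_wt μ b
  refine ⟨C, hC, fun {O} hO ι _ X W κ m v p w hκ hm hW hb hd hw wm n f hf => ?_⟩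
  rw [qq_jet, nj_jet, ← jet_jet, ← jet_mul, ← jet_mul]
  refine jet_mono hW (fun u hu => ?_) n hf
  have k := fun u => Ideal.mul_mem_right (u * cj u) _ hw.K
  have := h (fun j u => X j u) W fv κ m v p.1 (fun y => (fv w y).re) hκ hm hW
    (fun u _ y hy => (fv_sm hO u (hb hy)).of_le (by simp))
    (fun u hu k y hy => by
      rw [← fv_pd hO _ u (hb hy), ← qq_box μ hO X ⟨y, hb hy⟩]
      exact hd u hu k ⟨y, hb hy⟩ hy)
    (fun y => by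
      by_cases c : y ∈ O
      · exact hw.pos ⟨y, c⟩
      · simp [fv_out _ c])
    (fun y hy => wm ⟨y, hb hy⟩ hy)
    (fun u _ => by rw [nsq_box μ hO hw]; exact (cs_int μ hO (k u)).re) u hu
  refine this.trans (le_of_eq ?_)
  congr 2
  funext u
  rw [nsq_box μ hO hw]
  exact (box_J μ hO (k u)).symm

end box

/-- Coordinates. -/
noncomputable def c4 : (ℂ × ℂ) ≃ₗ[ℝ] (Fin 4 → ℝ) where
  toFun y := ![y.1.re, y.1.im, y.2.re, y.2.im]
  invFun t := (⟨t 0, t 1⟩, ⟨t 2, t 3⟩)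
  map_add' x y := by ext i; fin_cases i <;> simp
  map_smul' c y := by ext i; fin_cases i <;> simp
  left_inv y := rfl
  right_inv t := by ext i; fin_cases i <;> rfl

theorem c4_ap (y : ℂ × ℂ) : c4 y = ![y.1.re, y.1.im, y.2.re, y.2.im] := rfl

/-- One more real coordinate. -/
def cs1 {F : Type} [AddCommGroup F] [Module ℝ F] {n : ℕ} (c : F ≃ₗ[ℝ] (Fin n → ℝ)) :
    (ℝ × F) ≃ₗ[ℝ] (Fin (n + 1) → ℝ) where
  toFun y := Fin.cons y.1 (c y.2)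
  invFun t := (t 0, c.symm (Fin.tail t))
  map_add' x y := by ext i; refine Fin.cases ?_ (fun i => ?_) i <;> simp
  map_smul' a y := by ext i; refine Fin.cases ?_ (fun i => ?_) i <;> simp
  left_inv y := by simp
  right_inv t := by simp

theorem cs1_ap {F : Type} [AddCommGroup F] [Module ℝ F] {n : ℕ} (c : F ≃ₗ[ℝ] (Fin n → ℝ))
    (y : ℝ × F) : cs1 c y = Fin.cons y.1 (c y.2) := rfl

noncomputable def b4 : Basis (Fin 4) ℝ (ℂ × ℂ) := Basis.ofEquivFun c4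
noncomputable def b5 : Basis (Fin 5) ℝ (ℝ × ℂ × ℂ) := Basis.ofEquivFun (cs1 c4)
noncomputable def b6 : Basis (Fin 6) ℝ E6 := Basis.ofEquivFun (cs1 (cs1 c4))

/-- The four unit vectors. -/
def e4 : Fin 4 → ℂ × ℂ := ![(1, 0), (I, 0), (0, 1), (0, I)]

/-- One more edge. -/
def up {F : Type} [Zero F] {n : ℕ} (h : ℝ) (s : Fin n → ℝ) (v : Fin n → F) : Fin (n + 1) → ℝ × F :=
  Fin.cons (h, 0) fun k => (s k, v k)

theorem det_up {F : Type} [AddCommGroup F] [Module ℝ F] {n : ℕ} (c : F ≃ₗ[ℝ] (Fin n → ℝ)) (h : ℝ)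
    (s : Fin n → ℝ) (v : Fin n → F) :
    (Basis.ofEquivFun (cs1 c)).det (up h s v) = h * (Basis.ofEquivFun c).det v := by
  rw [Basis.det_apply, Basis.det_apply, Matrix.det_succ_column_zero, Fin.sum_univ_succ,
    Finset.sum_eq_zero fun i _ => by simp [Basis.toMatrix_apply, up, cs1_ap]]
  have : ((Basis.ofEquivFun (cs1 c)).toMatrix (up h s v)).submatrix (Fin.succAbove 0) Fin.succ =
      (Basis.ofEquivFun c).toMatrix v := by
    ext i j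
    simp [Basis.toMatrix_apply, up, cs1_ap]
  rw [this]
  simp [Basis.toMatrix_apply, up, cs1_ap]

theorem det4 (δ : ℝ) : b4.det (fun k => δ • e4 k) = δ ^ 4 := by
  have : b4.toMatrix (fun k => δ • e4 k) = δ • 1 := by
    ext i j
    fin_cases i <;> fin_cases j <;> simp [Basis.toMatrix_apply, b4, c4_ap, e4]
  rw [Basis.det_apply, this, Matrix.det_smul]
  simp

/-- The edges (k, 0), (s j, del e_j) and (h, 0, 0), (q 0, k, 0), (q (j + 1), s j, del e_j). -/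
noncomputable def ed5 (k δ : ℝ) (s : Fin 4 → ℝ) : Fin 5 → ℝ × ℂ × ℂ := up k s fun j => δ • e4 j
noncomputable def ed6 (h k δ : ℝ) (q : Fin 5 → ℝ) (s : Fin 4 → ℝ) : Fin 6 → E6 :=
  up h q (ed5 k δ s)

theorem det5 (k δ : ℝ) (s : Fin 4 → ℝ) : b5.det (ed5 k δ s) = k * δ ^ 4 := by
  rw [b5, ed5, det_up, ← det4, b4]

theorem det6 (h k δ : ℝ) (q : Fin 5 → ℝ) (s : Fin 4 → ℝ) :
    b6.det (ed6 h k δ q s) = h * (k * δ ^ 4) := by
  rw [b6, ed6, det_up, ← det5 k δ s, b5]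

theorem mem_up {F : Type} [NormedAddCommGroup F] [NormedSpace ℝ F] {n : ℕ} {h : ℝ} {s : Fin n → ℝ}
    {v : Fin n → F} {p y : ℝ × F} (hy : y ∈ bx p (up h s v)) : ∃ (a : ℝ) (t : Fin n → ℝ),
      0 ≤ a ∧ a ≤ 1 ∧ (∀ k, 0 ≤ t k ∧ t k ≤ 1) ∧ y.1 = p.1 + a * h + ∑ k, t k * s k ∧
        y.2 = p.2 + ∑ k, t k • v k := by
  obtain ⟨t, ht, rfl⟩ := mem_bx.1 hy
  refine ⟨t 0, Fin.tail t, (ht 0).1, (ht 0).2, fun k => ht _, ?_, ?_⟩ <;>
    simp [Fin.sum_univ_succ, up, Fin.tail, Prod.fst_sum, Prod.snd_sum, add_assoc]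

theorem near4 {δ : ℝ} {t : Fin 4 → ℝ} (ht : ∀ k, 0 ≤ t k ∧ t k ≤ 1) :
    normSq (∑ k, t k • δ • e4 k).1 + normSq (∑ k, t k • δ • e4 k).2 ≤ 4 * δ ^ 2 := by
  have a : ∀ k, (t k * δ) ^ 2 ≤ δ ^ 2 := fun k => by
    rw [mul_pow]
    exact mul_le_of_le_one_left (sq_nonneg _) (pow_le_one₀ (ht k).1 (ht k).2)
  simp [Fin.sum_univ_four, e4, normSq_apply]
  nlinarith [a 0, a 1, a 2, a 3]

/-- The points of the parallelepiped. -/
theorem mem6 {h k δ : ℝ} {q : Fin 5 → ℝ} {s : Fin 4 → ℝ} {p y : E6}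
    (hy : y ∈ bx p (ed6 h k δ q s)) : ∃ (a b : ℝ) (t : Fin 4 → ℝ), 0 ≤ a ∧ a ≤ 1 ∧ 0 ≤ b ∧ b ≤ 1 ∧
      (∀ j, 0 ≤ t j ∧ t j ≤ 1) ∧ y.1 = p.1 + a * h + b * q 0 + ∑ j, t j * q j.succ ∧
      y.2.1 = p.2.1 + b * k + ∑ j, t j * s j ∧ y.2.2 = p.2.2 + ∑ j, t j • δ • e4 j := by
  obtain ⟨a, t, a0, a1, ht, e1, e2⟩ := mem_up hy
  refine ⟨a, t 0, Fin.tail t, a0, a1, (ht 0).1, (ht 0).2, fun j => ht _, ?_, ?_, ?_⟩
  · rw [e1, Fin.sum_univ_succ, add_assoc (p.1 + a * h)]; rfl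
  all_goals simp [e2, Fin.sum_univ_succ (n := 4), ed5, up, Fin.tail, Prod.fst_sum, Prod.snd_sum,
    add_assoc]

theorem nq_near {δ : ℝ} {t : Fin 4 → ℝ} (ht : ∀ k, 0 ≤ t k ∧ t k ≤ 1) {p y : E6}
    (e : y.2.2 = p.2.2 + ∑ j, t j • δ • e4 j) :
    9 / 10 * nq p - 40 * δ ^ 2 ≤ nq y ∧ nq y ≤ 11 / 10 * nq p + 44 * δ ^ 2 := by
  have a := near4 (δ := δ) ht
  generalize (∑ k, t k • δ • e4 k) = z at a e
  simp only [nq, e, Prod.fst_add, Prod.snd_add, normSq_apply, add_re, add_im] at a ⊢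
  constructor <;> nlinarith [sq_nonneg (p.2.2.1.re + 10 * z.1.re),
    sq_nonneg (p.2.2.1.im + 10 * z.1.im), sq_nonneg (p.2.2.2.re + 10 * z.2.re),
    sq_nonneg (p.2.2.2.im + 10 * z.2.im), sq_nonneg (p.2.2.1.re - 10 * z.1.re),
    sq_nonneg (p.2.2.1.im - 10 * z.1.im), sq_nonneg (p.2.2.2.re - 10 * z.2.re),
    sq_nonneg (p.2.2.2.im - 10 * z.2.im), sq_nonneg z.1.re, sq_nonneg z.1.im, sq_nonneg z.2.re,
    sq_nonneg z.2.im]

theorem nq_bx {h k δ : ℝ} {q : Fin 5 → ℝ} {s : Fin 4 → ℝ} {p y : E6}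
    (hy : y ∈ bx p (ed6 h k δ q s)) :
    9 / 10 * nq p - 40 * δ ^ 2 ≤ nq y ∧ nq y ≤ 11 / 10 * nq p + 44 * δ ^ 2 := by
  obtain ⟨-, -, t, -, -, -, -, ht, -, -, e⟩ := mem6 hy
  exact nq_near ht e

section first
variable {O : Set E6} (hO : IsOpen O) (f : Sm (on O)) {y : E6} (hy : y ∈ O)
include hy

theorem fv_z (i : Fin 6) : fv ((hp (on O)).z i) y = zc i y := by
  rw [fv_in _ hy]; exact ev_on (rs_z i) hy

include hO

/-- A directional derivative in the complex derivations. -/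
theorem fv_dir (v : E6) : fv (pd v f) y = ∑ i, zc i v * fv ((hp (on O)).d i f) y := by
  have e : v = v.1 • ((1, 0, 0, 0) : E6) + v.2.1 • ((0, 1, 0, 0) : E6) +
      v.2.2.1.re • ((0, 0, 1, 0) : E6) + v.2.2.1.im • ((0, 0, I, 0) : E6) +
      v.2.2.2.re • ((0, 0, 0, 1) : E6) + v.2.2.2.im • ((0, 0, 0, I) : E6) := by
    ext <;> simp
  simp only [hp_d, fv_add, fv_mul, fv_alg _ hy, fv_pd hO _ f hy, Fin.sum_univ_six]
  conv_lhs => rw [e]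
  simp only [map_add, map_smul, real_smul]
  have a := re_add_im v.2.2.1
  have b := re_add_im v.2.2.2
  have c : starRingEnd ℂ v.2.2.1 = v.2.2.1.re - v.2.2.1.im * I := by apply Complex.ext <;> simp
  have d : starRingEnd ℂ v.2.2.2 = v.2.2.2.re - v.2.2.2.im * I := by apply Complex.ext <;> simp
  simp [d1, d2, v1, v2, zc, c, d]
  generalize (v.2.2.1.re : ℂ) = x1 at *
  generalize (v.2.2.1.im : ℂ) = y1 at *
  generalize (v.2.2.2.re : ℂ) = x2 at *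
  generalize (v.2.2.2.im : ℂ) = y2 at *
  rw [← a, ← b]
  ring_nf
  simp only [I_sq]
  ring

omit hO in
theorem fv_sub (a b : Sm (on O)) : fv (a - b) y = fv a y - fv b y := map_sub (evO ⟨y, hy⟩) a b

omit hO in
theorem pq_eq : nq y * ∑ i : Fin 4, ‖fv ((hp (on O)).d i.succ.succ f) y‖ ^ 2 =
    ‖fv ((hp (on O)).P f) y‖ ^ 2 + ‖fv ((hp (on O)).Q f) y‖ ^ 2 + ‖fv ((hp (on O)).H f) y‖ ^ 2 +
      ‖fv ((hp (on O)).B f) y‖ ^ 2 := by
  simp only [Hp.P_ap, Hp.Q_ap, Hp.H_ap, Hp.B_ap, fv_sub hy, fv_add, fv_mul, fv_z hy,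
    Fin.sum_univ_four, Complex.sq_norm, normSq_apply, nq]
  simp [zc]
  ring

omit hO in
theorem pq_om : 2 * (‖fv ((hp (on O)).P f) y‖ ^ 2 + ‖fv ((hp (on O)).Q f) y‖ ^ 2 +
    ‖fv ((hp (on O)).H f) y‖ ^ 2 + ‖fv ((hp (on O)).B f) y‖ ^ 2) =
    ‖fv ((hp (on O)).H f + (hp (on O)).B f) y‖ ^ 2 + 4 * ∑ j, ‖fv (Om (hp (on O)) j f) y‖ ^ 2 := by
  simp only [Fin.sum_univ_three, Om, Matrix.cons_val, Derivation.smul_apply, Derivation.add_apply,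
    Derivation.sub_apply, smul_eq_mul, Hp.P_ap, Hp.Q_ap, Hp.H_ap, Hp.B_ap, fv_sub hy, fv_add,
    fv_mul, fv_z hy, Complex.sq_norm, normSq_apply, Geo.hf, P354XR.ii, fv_alg _ hy]
  simp [zc]
  ring

/-- The first order bound. -/
theorem fv_le (v : E6) : ‖fv (pd v f) y‖ ^ 2 ≤ 3 * (v.1 ^ 2 * ‖fv ((hp (on O)).d 0 f) y‖ ^ 2 +
    v.2.1 ^ 2 * ‖fv ((hp (on O)).d 1 f) y‖ ^ 2 +
      2 * nq v * ∑ i : Fin 4, ‖fv ((hp (on O)).d i.succ.succ f) y‖ ^ 2) := by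
  rw [fv_dir hO f hy, Fin.sum_univ_succ, Fin.sum_univ_succ]
  have a := Finset.sum_mul_sq_le_sq_mul_sq Finset.univ (fun i : Fin 4 => ‖zc i.succ.succ v‖)
    fun i => ‖fv ((hp (on O)).d i.succ.succ f) y‖
  have b : ∑ i : Fin 4, ‖zc i.succ.succ v‖ ^ 2 = 2 * nq v := by
    simp [Fin.sum_univ_four, zc, nq, Complex.sq_norm]; ring
  have c := (norm_sum_le _ _).trans (Finset.sum_le_sum (s := Finset.univ) fun (i : Fin 4) _ =>
    (norm_mul (zc i.succ.succ v) (fv ((hp (on O)).d i.succ.succ f) y)).le)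
  have d := (pow_le_pow_left₀ (norm_nonneg _) c 2).trans (b ▸ a)
  have e0 : ‖zc 0 v * fv ((hp (on O)).d 0 f) y‖ ^ 2 = v.1 ^ 2 * ‖fv ((hp (on O)).d 0 f) y‖ ^ 2 := by
    simp [zc, mul_pow]
  have e1 : ‖zc 1 v * fv ((hp (on O)).d 1 f) y‖ ^ 2 =
      v.2.1 ^ 2 * ‖fv ((hp (on O)).d 1 f) y‖ ^ 2 := by simp [zc, mul_pow]
  rw [← e0, ← e1, Fin.succ_zero_eq_one]
  generalize zc 0 v * fv ((hp (on O)).d 0 f) y = x0
  generalize zc 1 v * fv ((hp (on O)).d 1 f) y = x1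
  generalize ∑ i : Fin 4, zc i.succ.succ v * fv ((hp (on O)).d i.succ.succ f) y = x2 at d
  have g := pow_le_pow_left₀ (norm_nonneg _) ((norm_add_le x0 (x1 + x2)).trans
    (add_le_add_right (norm_add_le x1 x2) _)) 2
  nlinarith [sq_nonneg (‖x0‖ - ‖x1‖), sq_nonneg (‖x0‖ - ‖x2‖), sq_nonneg (‖x1‖ - ‖x2‖)]

end first

instance haar5 : (volume : Measure (ℝ × ℂ × ℂ)).IsAddHaarMeasure :=
  have : (volume : Measure (ℂ × ℂ)).IsAddHaarMeasure := Measure.prod.instIsAddHaarMeasure _ _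
  Measure.prod.instIsAddHaarMeasure _ _

instance haar6 : (volume : Measure E6).IsAddHaarMeasure := Measure.prod.instIsAddHaarMeasure _ _

theorem ed6_le {h k δ T R : ℝ} {q : Fin 5 → ℝ} {s : Fin 4 → ℝ} (hh : h ^ 2 ≤ T)
    (hq : ∀ i, q i ^ 2 ≤ T) (hk : k ^ 2 ≤ R) (hs : ∀ i, s i ^ 2 ≤ R) (i : Fin 6) :
    (ed6 h k δ q s i).1 ^ 2 ≤ T ∧ (ed6 h k δ q s i).2.1 ^ 2 ≤ R ∧ nq (ed6 h k δ q s i) ≤ δ ^ 2 := by
  have a := (sq_nonneg k).trans hk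
  have b := sq_nonneg δ
  refine Fin.cases ?_ (fun i => Fin.cases ?_ (fun i => ?_) i) i
  · simp [ed6, up, nq, hh, a, b]
  · simp [ed6, ed5, up, nq, hq, hk, b]
  · refine ⟨hq _, hs _, ?_⟩
    show normSq (δ • e4 i).1 + normSq (δ • e4 i).2 ≤ _
    fin_cases i <;> simp [e4, pow_two]

/-- The Sobolev inequality in the chart (t, r, xi). -/
theorem sob6 (μ : Measure E6) [μ.IsAddHaarMeasure] : ∃ C : ℝ, 0 < C ∧ ∀ {O : Set E6}
    (hO : IsOpen O) {ι : Type} [Fintype ι] (X : ι → Der (Sm (on O))) (W : Sm (on O) → Prop)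
    (κ m h k δ T R : ℝ) (q : Fin 5 → ℝ) (s : Fin 4 → ℝ) (p : (box μ hO).Pt) (w : Sm (on O)),
    0 ≤ κ → 0 ≤ m → 400 * δ ^ 2 ≤ nq p.1 → h ^ 2 ≤ T → (∀ i, q i ^ 2 ≤ T) → k ^ 2 ≤ R →
    (∀ i, s i ^ 2 ≤ R) → (∀ j u, W u → W (X j u)) → bx p.1 (ed6 h k δ q s) ⊆ O →
    (∀ u, W u → ∀ y : (box μ hO).Pt, y.1 ∈ bx p.1 (ed6 h k δ q s) →
      T * (box μ hO).md y ((hp (on O)).d 0 u) ^ 2 ≤ κ * qq (box μ hO) X y 1 u ∧
      R * (box μ hO).md y ((hp (on O)).d 1 u) ^ 2 ≤ κ * qq (box μ hO) X y 1 u ∧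
      (box μ hO).md y ((hp (on O)).H u + (hp (on O)).B u) ^ 2 +
        4 * ∑ j, (box μ hO).md y (Om (hp (on O)) j u) ^ 2 ≤ 300 * κ * qq (box μ hO) X y 1 u) →
    (box μ hO).Wt w →
    (∀ y : (box μ hO).Pt, y.1 ∈ bx p.1 (ed6 h k δ q s) → m ≤ (box μ hO).val y w) → ∀ n f, W f →
      m * (|h| * |k| * δ ^ 4) * qq (box μ hO) X p n f ≤
        C * (2 + 9 * κ) ^ 6 * nj (box μ hO) X w (6 + n) f := by
  obtain ⟨C, hC, H⟩ := sob_box μ b6
  refine ⟨C, hC, fun {O} hO ι _ X W κ m h k δ T R q s p w hκ hm hp hh hq hk hs hW hb hd hw wm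
    n f hf => ?_⟩
  have := H hO X W (9 * κ) m _ p w (by linarith) hm hW hb (fun u hu i y hy => ?_) hw wm n f hf
  · rwa [det6, abs_mul, abs_mul, abs_of_nonneg (a := δ ^ 4) (by positivity), ← mul_assoc |h|] at this
  obtain ⟨a1, a2, a3⟩ := hd u hu y hy
  obtain ⟨b1, b2, b3⟩ := ed6_le (δ := δ) hh hq hk hs i
  have c : 300 * nq (ed6 h k δ q s i) ≤ nq y.1 := by linarith [(nq_bx hy).1, sq_nonneg δ]
  have e1 := pq_eq u y.2
  have e2 := pq_om u y.2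
  have e3 := fv_le hO u y.2 (ed6 h k δ q s i)
  have z : 0 ≤ ∑ i : Fin 4, ‖fv ((P354XD.hp (on O)).d i.succ.succ u) y.1‖ ^ 2 := by positivity
  have md : ∀ a, (box μ hO).md y a = ‖fv a y.1‖ := fun _ => rfl
  simp only [md] at a1 a2 a3 ⊢
  have g1 := mul_le_mul_of_nonneg_right b1 (sq_nonneg ‖fv ((P354XD.hp (on O)).d 0 u) y.1‖)
  have g2 := mul_le_mul_of_nonneg_right b2 (sq_nonneg ‖fv ((P354XD.hp (on O)).d 1 u) y.1‖)
  have g4 := mul_le_mul_of_nonneg_right c z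
  linarith

end Vale.Agent.P354XW
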