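import Vale.Agent.P354BF.Curve

/-!
The forms `B n u v = Re <u, cas ^ n v>`; `B n u u` is the sum of the squares of the norms of all
words of length `n` in the rotations.
-/

open scoped ContDiff InnerProductSpace ComplexConjugate
open Complex (I)
open Vale.Agent.P354BF

namespace Vale.Agent.P354XW

variable {S : Type} [NormedAddCommGroup S] [InnerProductSpace ℂ S] {A : Ang S}

/-- The form of order `n`. -/
noncomputable def B (A : Ang S) (n : ℕ) (u v : S) : ℝ := (⟪u, (A.cas ^ n) v⟫_ℂ).re

theorem B_zero (u : S) : B A 0 u u = ‖u‖ ^ 2 := by simp [B, ← Complex.ofReal_pow]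

theorem B_cas (n : ℕ) (u v : S) : B A n u (A.cas v) = B A (n + 1) u v := by
  simp [B, pow_succ]

theorem B_add (n : ℕ) (u v w : S) : B A n u (v + w) = B A n u v + B A n u w := by
  simp [B]

theorem B_sub (n : ℕ) (u v w : S) : B A n u (v - w) = B A n u v - B A n u w := by
  simp [B]

theorem B_smul (n : ℕ) (c : ℝ) (u v : S) : B A n u ((c : ℂ) • v) = c * B A n u v := by
  simp [B]

theorem L_cas (h : A.Is) (i : Fin 3) (u : S) : A.L i (A.cas u) = A.cas (A.L i u) := by
  have e0 : ∀ u, A.L 0 (A.L 2 u) = A.L 2 (A.L 0 u) + A.L 1 u := fun u => by rw [h.L20]; abel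
  have e1 : ∀ u, A.L 1 (A.L 0 u) = A.L 0 (A.L 1 u) + A.L 2 u := fun u => by rw [h.L01]; abel
  have : i = 0 ∨ i = 1 ∨ i = 2 := by revert i; decide
  rcases this with rfl | rfl | rfl
  · simp only [A.cas_apply, Fin.sum_univ_three, map_neg, map_add, h.L01, e0, map_sub]
    abel
  · simp only [A.cas_apply, Fin.sum_univ_three, map_neg, map_add, h.L12, e1, map_sub]
    abel
  · exact h.L2_cas u

theorem L_pow (h : A.Is) (i : Fin 3) (n : ℕ) (u : S) :
    A.L i ((A.cas ^ n) u) = (A.cas ^ n) (A.L i u) := by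
  induction n generalizing u with
  | zero => rfl
  | succ n ih => simp only [pow_succ, Module.End.mul_apply, ih, L_cas h]

theorem B_succ (h : A.Is) (n : ℕ) (u v : S) :
    B A (n + 1) u v = ∑ i, B A n (A.L i u) (A.L i v) := by
  simp only [B, pow_succ', Module.End.mul_apply, h.cas_ip, Complex.re_sum, L_pow h]

theorem B_symm (h : A.Is) (n : ℕ) (u v : S) : B A n u v = B A n v u := by
  induction n generalizing u v with
  | zero => simpa [B] using inner_re_symm (𝕜 := ℂ) u v
  | succ n ih => simp only [B_succ h, ih (A.L _ u)]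

theorem B_add' (n : ℕ) (u v w : S) : B A n (v + w) u = B A n v u + B A n w u := by
  simp [B]

theorem B_sub' (n : ℕ) (u v w : S) : B A n (v - w) u = B A n v u - B A n w u := by
  simp [B]

theorem B_smul' (n : ℕ) (c : ℝ) (u v : S) : B A n ((c : ℂ) • u) v = c * B A n u v := by
  simp [B]

theorem B_nonneg (h : A.Is) (n : ℕ) (u : S) : 0 ≤ B A n u u := by
  induction n generalizing u with
  | zero => rw [B_zero]; positivity
  | succ n ih => rw [B_succ h]; exact Finset.sum_nonneg fun i _ => ih _

theorem B_skew (h : A.Is) (n : ℕ) (i : Fin 3) (u : S) : B A n u (A.L i u) = 0 := by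
  have : B A n u (A.L i u) = -B A n (A.L i u) u := by
    simp only [B]
    rw [← L_pow h, h.skew', Complex.neg_re]
  rw [B_symm h n (A.L i u)] at this
  linarith

theorem B_L (h : A.Is) (n : ℕ) (i : Fin 3) (u : S) :
    B A n (A.L i u) (A.L i u) ≤ B A (n + 1) u u := by
  rw [B_succ h]
  exact Finset.single_le_sum (f := fun i => B A n (A.L i u) (A.L i u))
    (fun i _ => B_nonneg h n _) (Finset.mem_univ i)

theorem word_le (h : A.Is) (α : List (Fin 3)) (n : ℕ) (u : S) :
    B A n (A.word α u) (A.word α u) ≤ B A (n + α.length) u u := by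
  induction α generalizing n with
  | nil => exact le_rfl
  | cons i α ih =>
    refine (B_L h n i _).trans ((ih (n + 1)).trans_eq ?_)
    rw [List.length_cons, add_assoc, add_comm 1]

theorem B_ge (h : A.Is) (n : ℕ) (u : S) :
    (A.s ^ 2 + |A.s|) * B A n u u ≤ B A (n + 1) u u := by
  induction n generalizing u with
  | zero => simpa only [B_succ h, B_zero] using h.cas_ge u
  | succ n ih =>
    rw [B_succ h (n + 1), B_succ h n, Finset.mul_sum]
    exact Finset.sum_le_sum fun i _ => ih _

theorem B_cs (h : A.Is) (n : ℕ) (u v : S) (x y : ℝ) :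
    2 * x * y * B A n u v ≤ x ^ 2 * B A n u u + y ^ 2 * B A n v v := by
  have := B_nonneg h n ((x : ℂ) • u - (y : ℂ) • v)
  simp only [B_sub, B_smul, B_sub', B_smul', B_symm h n v u] at this
  nlinarith

theorem B_add_le (h : A.Is) (n : ℕ) (u v : S) :
    B A n (u + v) (u + v) ≤ 2 * B A n u u + 2 * B A n v v := by
  have := B_cs h n u v 1 1
  simp only [B_add, B_add', B_symm h n v u]
  linarith

theorem B_sub_le (h : A.Is) (n : ℕ) (u v : S) :
    B A n (u - v) (u - v) ≤ 2 * B A n u u + 2 * B A n v v := by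
  have := B_cs h n u v 1 (-1)
  simp only [B_sub, B_sub', B_symm h n v u]
  linarith

theorem B_smul_smul (n : ℕ) (c : ℝ) (u : S) :
    B A n ((c : ℂ) • u) ((c : ℂ) • u) = c ^ 2 * B A n u u := by
  rw [B_smul, B_smul']; ring

theorem B_has (h : A.Is) (n : ℕ) {u v : ℝ → S} (hu : A.Sm u) (hv : A.Sm v) (r : ℝ) :
    HasDerivAt (fun r => B A n (u r) (v r))
      (B A n (u r) (deriv v r) + B A n (deriv u r) (v r)) r := by
  induction n generalizing u v with
  | zero =>
    exact Complex.reCLM.hasFDerivAt.comp_hasDerivAt r ((hu.has r).inner ℂ (hv.has r))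
  | succ n ih =>
    simp only [B_succ h, ← Finset.sum_add_distrib]
    refine HasDerivAt.fun_sum fun i _ => ?_
    simpa only [h.deriv_L hu, h.deriv_L hv] using ih (hu.L i) (hv.L i)

theorem B_cont (h : A.Is) (n : ℕ) {u v : ℝ → S} (hu : A.Sm u) (hv : A.Sm v) :
    Continuous fun r => B A n (u r) (v r) :=
  continuous_iff_continuousAt.2 fun r => (B_has h n hu hv r).continuousAt

end Vale.Agent.P354XW
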