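import Vale.Agent.P354XW.Form

/-!
The static Teukolsky operator: the multiplier `r ^ β ∂_r`, the Hardy inequality and the algebraic
recovery.
-/

open scoped ContDiff InnerProductSpace
open Set MeasureTheory intervalIntegral
open Vale.Agent.P354BF

namespace Vale.Agent.P354XW

variable {S : Type} [NormedAddCommGroup S] [InnerProductSpace ℂ S] {A : Ang S} {v : ℝ → S}

/-- The operator `De v'' + k De' v' + 2 a Phi v' - cas v + c v`. -/
noncomputable def Q (A : Ang S) (k c M a : ℝ) (v : ℝ → S) (r : ℝ) : S :=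
  ((De M a r : ℝ) : ℂ) • deriv (deriv v) r + ((k * (2 * r - 2 * M) : ℝ) : ℂ) • deriv v r +
    ((2 * a : ℝ) : ℂ) • A.L 2 (deriv v r) - A.cas (v r) + (c : ℂ) • v r

theorem sm_cas (hv : A.Sm v) : A.Sm fun r => A.cas (v r) := by
  simp only [A.cas_apply, Fin.sum_univ_three]
  exact ((((hv.L 0).L 0).add ((hv.L 1).L 1)).add ((hv.L 2).L 2)).neg

theorem cas_has (h : A.Is) (hv : A.Sm v) (r : ℝ) :
    HasDerivAt (fun r => A.cas (v r)) (A.cas (deriv v r)) r := by
  have e : ∀ i, HasDerivAt (fun r => A.L i (A.L i (v r))) (A.L i (A.L i (deriv v r))) r :=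
    fun i => by simpa only [h.deriv_L (hv.L i), h.deriv_L hv] using ((hv.L i).L i).has r
  simp only [A.cas_apply]
  exact (HasDerivAt.fun_sum fun i _ => e i).neg

theorem sm_Q (h : A.Is) (hv : A.Sm v) (k c M a : ℝ) : A.Sm (Q A k c M a v) := by
  have h1 := h.sm_deriv hv
  have e : ∀ {f : ℝ → ℝ}, ContDiff ℝ ∞ f → ContDiff ℝ ∞ fun r => (f r : ℂ) :=
    fun hf => Complex.ofRealCLM.contDiff.comp hf
  exact (((((h.sm_deriv h1).smul (e (by unfold De; fun_prop))).add
    (h1.smul (e (by fun_prop)))).add ((h1.L 2).cmul _)).sub (sm_cas hv)).add (hv.cmul _)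

theorem De_has (M a r : ℝ) : HasDerivAt (De M a) (2 * r - 2 * M) r := by
  have := ((hasDerivAt_pow 2 r).sub ((hasDerivAt_id' r).const_mul (2 * M))).add_const (a ^ 2)
  exact this.congr_deriv (by simp)

theorem deriv_Q (h : A.Is) (hv : A.Sm v) (k c M a : ℝ) :
    deriv (Q A k c M a v) = Q A (k + 1) (c + 2 * k) M a (deriv v) := by
  funext r
  have h1 := h.sm_deriv hv
  have e1 := (De_has M a r).ofReal_comp.smul ((h.sm_deriv h1).has r)
  have e2 := ((((hasDerivAt_id' r).const_mul 2).sub_const (2 * M)).const_mul k).ofReal_comp.smul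
    (h1.has r)
  have e3 := ((h1.L 2).has r).const_smul ((2 * a : ℝ) : ℂ)
  rw [h.deriv_L h1] at e3
  have e := ((((e1.add e2).add e3).sub (cas_has h hv r)).add ((hv.has r).const_smul (c : ℂ))).deriv
  refine e.trans ?_
  simp only [Q]
  push_cast
  module

/-- Weighted integrals. -/
noncomputable def J (A : Ang S) (β : ℝ) (n : ℕ) (v : ℝ → S) (x y : ℝ) : ℝ :=
  ∫ r in x..y, r ^ (β - 1) * B A n (v r) (v r)

/-- Boundary terms. -/
noncomputable def bd (A : Ang S) (β : ℝ) (n : ℕ) (v : ℝ → S) (y : ℝ) : ℝ :=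
  y ^ β * B A n (v y) (v y)

theorem co_J (h : A.Is) (hv : A.Sm v) (γ : ℝ) (n : ℕ) {x y : ℝ} (hx : 0 < x) :
    ContinuousOn (fun r => r ^ γ * B A n (v r) (v r)) (Icc x y) :=
  (continuousOn_id.rpow_const fun _ hr => Or.inl (hx.trans_le hr.1).ne').mul
    (B_cont h n hv hv).continuousOn

theorem ii_J (h : A.Is) (hv : A.Sm v) (γ : ℝ) (n : ℕ) {x y : ℝ} (hx : 0 < x) (hxy : x ≤ y) :
    IntervalIntegrable (fun r => r ^ γ * B A n (v r) (v r)) volume x y :=
  (co_J h hv γ n hx).intervalIntegrable_of_Icc hxy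

theorem J_nonneg (h : A.Is) (β : ℝ) (n : ℕ) (v : ℝ → S) {x y : ℝ} (hx : 0 < x) (hxy : x ≤ y) :
    0 ≤ J A β n v x y :=
  integral_nonneg hxy fun _ hr =>
    mul_nonneg (Real.rpow_nonneg (hx.le.trans hr.1) _) (B_nonneg h n _)

theorem bd_nonneg (h : A.Is) (β : ℝ) (n : ℕ) (v : ℝ → S) {y : ℝ} (hy : 0 < y) :
    0 ≤ bd A β n v y := mul_nonneg (Real.rpow_nonneg hy.le _) (B_nonneg h n _)

theorem ftc4 {G g f1 f2 f3 f4 : ℝ → ℝ} {x y c1 c2 c3 c4 : ℝ} (hxy : x ≤ y)
    (hG : ∀ r ∈ Icc x y, HasDerivAt G (g r) r) (h1 : IntervalIntegrable f1 volume x y)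
    (h2 : IntervalIntegrable f2 volume x y) (h3 : IntervalIntegrable f3 volume x y)
    (h4 : IntervalIntegrable f4 volume x y)
    (h : ∀ r ∈ Icc x y, c1 * f1 r + c2 * f2 r + c3 * f3 r + c4 * f4 r ≤ g r) :
    c1 * (∫ r in x..y, f1 r) + c2 * (∫ r in x..y, f2 r) + c3 * (∫ r in x..y, f3 r) +
      c4 * (∫ r in x..y, f4 r) ≤ G y - G x := by
  have k2 := (h1.const_mul c1).add (h2.const_mul c2)
  have k3 := k2.add (h3.const_mul c3)
  have := integral_le_sub_of_hasDeriv_right_of_le hxy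
    (fun r hr => (hG r hr).continuousAt.continuousWithinAt)
    (fun r hr => (hG r (Ioo_subset_Icc_self hr)).hasDerivWithinAt)
    ((intervalIntegrable_iff_integrableOn_Icc_of_le hxy).1 (k3.add (h4.const_mul c4)))
    fun r hr => h r (Ioo_subset_Icc_self hr)
  rw [integral_add k3 (h4.const_mul c4), integral_add k2 (h3.const_mul c3),
    integral_add (h1.const_mul c1) (h2.const_mul c2)] at this
  simpa only [intervalIntegral.integral_const_mul] using this

theorem rp_succ {r : ℝ} (hr : 0 < r) (β : ℝ) : r ^ β = r ^ (β - 1) * r := by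
  rw [← Real.rpow_add_one hr.ne', sub_add_cancel]

theorem rp_two {r : ℝ} (hr : 0 < r) (β : ℝ) : r ^ (β + 2 - 1) = r ^ (β - 1) * r ^ 2 := by
  rw [← Real.rpow_natCast, ← Real.rpow_add hr]; congr 1; push_cast; ring

theorem hardy (h : A.Is) (hv : A.Sm v) (n : ℕ) {β x y : ℝ} (hβ : 0 < β) (hx : 0 < x)
    (hxy : x ≤ y) :
    β / 2 * J A β n v x y ≤ 2 / β * J A (β + 2) n (deriv v) x y + bd A β n v y := by
  have i1 := ii_J h hv (β - 1) n hx hxy
  have := ftc4 (c1 := β / 2) (c2 := -(2 / β)) (c3 := 0) (c4 := 0) hxy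
    (fun r hr => (Real.hasDerivAt_rpow_const (p := β) (Or.inl (hx.trans_le hr.1).ne')).mul
      (B_has h n hv hv r)) i1 (ii_J h (h.sm_deriv hv) (β + 2 - 1) n hx hxy) i1 i1 fun r hr => by
      have hr0 := hx.trans_le hr.1
      have k := B_cs h n (v r) (deriv v r) (-(β / 2)) r
      have k' := mul_le_mul_of_nonneg_left k
        (by positivity : 0 ≤ r ^ (β - 1) * (2 / β))
      rw [rp_two hr0, rp_succ hr0 β, B_symm h n (deriv v r) (v r)]
      have e : 2 / β * β = 2 := by field_simp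
      generalize 2 / β = t at *
      generalize r ^ (β - 1) = w at *
      linear_combination k' + (w * r * B A n (v r) (deriv v r) +
        w * β / 4 * B A n (v r) (v r)) * e
  have := bd_nonneg h β n v hx
  simp only [J, bd, Pi.mul_apply] at *
  linarith

theorem mul (h : A.Is) (hv : A.Sm v) (n : ℕ) {k c β κ M a x y : ℝ} (hκ : 0 < κ) (ha : |a| ≤ M)
    (hx : 0 < x) (hM : M ≤ (1 - κ) * x) (hD : De M a x ≤ 0) (hxy : x ≤ y) (hβ : 0 < β)
    (hk : β < 4 * k - 2) (hc0 : 0 ≤ c) (hc : c ≤ A.s ^ 2 + |A.s|) :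
    (4 * k - 2 - β) * κ / 2 * J A (β + 2) n (deriv v) x y + β * J A β (n + 1) v x y ≤
      β * c * J A β n v x y + 2 / ((4 * k - 2 - β) * κ) * J A β n (Q A k c M a v) x y +
        bd A (β + 2) n (deriv v) y + bd A β (n + 1) v y := by
  have h1 := h.sm_deriv hv
  have hM0 := (abs_nonneg a).trans ha
  have ha2 : a ^ 2 ≤ M ^ 2 := sq_le_sq' (abs_le.1 ha).1 (abs_le.1 ha).2
  have hκ1 : 0 ≤ 1 - κ := by by_contra hh; nlinarith
  have hδ : 0 < (4 * k - 2 - β) * κ := mul_pos (by linarith) hκ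
  have := ftc4 (c1 := (4 * k - 2 - β) * κ / 2) (c2 := β) (c3 := -(β * c))
    (c4 := -(2 / ((4 * k - 2 - β) * κ))) hxy
    (fun r hr => (Real.hasDerivAt_rpow_const (p := β) (Or.inl (hx.trans_le hr.1).ne')).mul
      (((B_has h (n + 1) hv hv r).sub ((B_has h n hv hv r).const_mul c)).sub
        ((De_has M a r).mul (B_has h n h1 h1 r))))
    (ii_J h h1 (β + 2 - 1) n hx hxy) (ii_J h hv (β - 1) (n + 1) hx hxy)
    (ii_J h hv (β - 1) n hx hxy) (ii_J h (sm_Q h hv k c M a) (β - 1) n hx hxy) fun r hr => by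
      have hr0 := hx.trans_le hr.1
      have hrM : κ * r ≤ r - M := by nlinarith [hr.1]
      have hb : (4 * k - 2 - β) * κ * r ^ 2 ≤
          (2 * k - 1) * r * (2 * r - 2 * M) - β * De M a r := by
        have e1 : De M a r ≤ r * (r - M) := by
          unfold De; nlinarith [mul_nonneg hM0 ((mul_pos hκ hr0).le.trans hrM)]
        nlinarith [mul_le_mul_of_nonneg_left e1 hβ.le,
          mul_le_mul_of_nonneg_left hrM (mul_nonneg (sub_pos.2 hk).le hr0.le)]
      have hF : B A n (deriv v r) (Q A k c M a v r) =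
          De M a r * B A n (deriv v r) (deriv (deriv v) r) +
            k * (2 * r - 2 * M) * B A n (deriv v r) (deriv v r) -
            B A (n + 1) (deriv v r) (v r) + c * B A n (deriv v r) (v r) := by
        simp only [Q, B_add, B_sub, B_smul, B_skew h, B_cas, mul_zero, add_zero]
      have k1 := B_cs h n (deriv v r) (Q A k c M a v r) ((4 * k - 2 - β) * κ / 2 * r) 1
      have k2 := mul_le_mul_of_nonneg_left k1
        (by positivity : 0 ≤ r ^ (β - 1) * (2 / ((4 * k - 2 - β) * κ)))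
      have k3 := mul_le_mul_of_nonneg_left hb
        (mul_nonneg (Real.rpow_nonneg hr0.le (β - 1)) (B_nonneg h n (deriv v r)))
      simp only [Pi.sub_apply, Pi.mul_apply]
      rw [rp_two hr0, rp_succ hr0 β, B_symm h (n + 1) (v r) (deriv v r),
        B_symm h n (v r) (deriv v r), B_symm h n (deriv (deriv v) r)]
      have e := div_mul_cancel₀ (2 : ℝ) hδ.ne'
      generalize 2 / ((4 * k - 2 - β) * κ) = t at *
      generalize (4 * k - 2 - β) * κ = δ at *
      generalize r ^ (β - 1) = w at *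
      linear_combination k2 + k3 - 2 * w * r * hF + (w * δ / 4 * r ^ 2 *
        B A n (deriv v r) (deriv v r) - w * r * B A n (deriv v r) (Q A k c M a v r)) * e
  have hy := hx.trans_le hxy
  have g1 : 0 ≤ x ^ β * (B A (n + 1) (v x) (v x) - c * B A n (v x) (v x) -
      De M a x * B A n (deriv v x) (deriv v x)) := by
    refine mul_nonneg (Real.rpow_nonneg hx.le _) ?_
    nlinarith [B_ge h n (v x), B_nonneg h n (v x), B_nonneg h n (deriv v x)]
  have g2 : y ^ β * (B A (n + 1) (v y) (v y) - c * B A n (v y) (v y) -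
      De M a y * B A n (deriv v y) (deriv v y)) ≤
      y ^ β * (B A (n + 1) (v y) (v y) + y ^ 2 * B A n (deriv v y) (deriv v y)) := by
    refine mul_le_mul_of_nonneg_left ?_ (Real.rpow_nonneg hy.le _)
    have : 0 ≤ De M a y + y ^ 2 := by
      have : M ≤ y := by nlinarith
      unfold De; nlinarith
    nlinarith [mul_nonneg hc0 (B_nonneg h n (v y)), mul_nonneg this (B_nonneg h n (deriv v y))]
  have g3 : y ^ (β + 2) = y ^ β * y ^ 2 := by rw [Real.rpow_add hy, Real.rpow_two]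
  simp only [J, bd, Pi.mul_apply, Pi.sub_apply, g3] at *
  linarith

theorem recov (h : A.Is) (hv : A.Sm v) (n : ℕ) {k c β M a x y : ℝ} (ha : |a| ≤ M)
    (hx : 0 < x) (hM : M ≤ x) (hxy : x ≤ y) (hk : k ^ 2 ≤ 4) (hc0 : 0 ≤ c) (hc : c ≤ 2)
    (hs : 6 ≤ A.s ^ 2 + |A.s|) :
    J A β (n + 2) v x y ≤ 24 * J A (β + 2 + 2) n (deriv (deriv v)) x y +
      112 * J A (β + 2) (n + 1) (deriv v) x y + 6 * J A β n (Q A k c M a v) x y := by
  have h1 := h.sm_deriv hv
  have hM0 := (abs_nonneg a).trans ha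
  have ha2 : a ^ 2 ≤ M ^ 2 := sq_le_sq' (abs_le.1 ha).1 (abs_le.1 ha).2
  have := ftc4 (c1 := 1) (c2 := -24) (c3 := -112) (c4 := -6) hxy
    (fun r _ => hasDerivAt_const r (0 : ℝ)) (ii_J h hv (β - 1) (n + 2) hx hxy)
    (ii_J h (h.sm_deriv h1) (β + 2 + 2 - 1) n hx hxy) (ii_J h h1 (β + 2 - 1) (n + 1) hx hxy)
    (ii_J h (sm_Q h hv k c M a) (β - 1) n hx hxy) fun r hr => by
      have hr0 := hx.trans_le hr.1
      have hrM := hM.trans hr.1
      have e : A.cas (v r) - (c : ℂ) • v r = ((De M a r : ℝ) : ℂ) • deriv (deriv v) r +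
          ((k * (2 * r - 2 * M) : ℝ) : ℂ) • deriv v r + ((2 * a : ℝ) : ℂ) • A.L 2 (deriv v r) -
          Q A k c M a v r := by simp only [Q]; abel
      have k1 : B A (n + 2) (v r) (v r) ≤
          3 * B A n (A.cas (v r) - (c : ℂ) • v r) (A.cas (v r) - (c : ℂ) • v r) := by
        simp only [B_sub, B_sub', B_smul, B_smul', B_cas, B_symm h _ (A.cas (v r)) (v r)]
        nlinarith [B_ge h (n + 1) (v r), B_nonneg h (n + 1) (v r),
          mul_nonneg (mul_nonneg hc0 hc0) (B_nonneg h n (v r))]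
      rw [e] at k1
      have k2 := B_sub_le h n (((De M a r : ℝ) : ℂ) • deriv (deriv v) r +
          ((k * (2 * r - 2 * M) : ℝ) : ℂ) • deriv v r + ((2 * a : ℝ) : ℂ) • A.L 2 (deriv v r))
          (Q A k c M a v r)
      have k3 := B_add_le h n (((De M a r : ℝ) : ℂ) • deriv (deriv v) r +
          ((k * (2 * r - 2 * M) : ℝ) : ℂ) • deriv v r) (((2 * a : ℝ) : ℂ) • A.L 2 (deriv v r))
      have k4 := B_add_le h n (((De M a r : ℝ) : ℂ) • deriv (deriv v) r)
          (((k * (2 * r - 2 * M) : ℝ) : ℂ) • deriv v r)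
      simp only [B_smul_smul] at k3 k4
      have d1 : De M a r ^ 2 ≤ (r ^ 2) ^ 2 := sq_le_sq' (by unfold De; nlinarith)
        (by unfold De; nlinarith)
      have d2 : (k * (2 * r - 2 * M)) ^ 2 ≤ 16 * r ^ 2 := by
        have : (2 * r - 2 * M) ^ 2 ≤ 4 * r ^ 2 := by nlinarith
        nlinarith [mul_le_mul hk this (sq_nonneg _) (by norm_num)]
      have d3 : (2 * a) ^ 2 ≤ 4 * r ^ 2 := by nlinarith
      have k5 := mul_le_mul_of_nonneg_right d1 (B_nonneg h n (deriv (deriv v) r))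
      have k6 := mul_le_mul_of_nonneg_right d2 (B_nonneg h n (deriv v r))
      have k7 := mul_le_mul d3 (B_L h n 2 (deriv v r)) (B_nonneg h n _) (by positivity)
      have k8 := mul_le_mul_of_nonneg_left ((mul_le_mul_of_nonneg_right hs
        (B_nonneg h n (deriv v r))).trans (B_ge h n (deriv v r))) (sq_nonneg r)
      have k9 : B A (n + 2) (v r) (v r) ≤ 24 * (r ^ 2 * r ^ 2 *
          B A n (deriv (deriv v) r) (deriv (deriv v) r)) + 112 * (r ^ 2 *
          B A (n + 1) (deriv v r) (deriv v r)) +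
          6 * B A n (Q A k c M a v r) (Q A k c M a v r) := by linarith
      rw [rp_two hr0, rp_two hr0]
      linear_combination (exp := 1) mul_le_mul_of_nonneg_left k9 (Real.rpow_nonneg hr0.le (β - 1))
  simp only [J] at *
  linarith

end Vale.Agent.P354XW
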