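import Mathlib

/-!
The Sobolev inequality on a parallelepiped for abstract letters.
-/

open scoped ContDiff ENNReal
open MeasureTheory Set Module

namespace Vale.Agent.P354XW

section jet
variable {A J M : Type*} [Fintype J]

/-- The sum of a functional over the words of length at most n, with binomial multiplicities. -/
def jet [AddCommMonoid M] (X : J → A → A) (φ : A → M) : ℕ → A → M
  | 0, u => φ u
  | n + 1, u => jet X φ n u + ∑ j, jet X φ n (X j u)

variable {X : J → A → A} {W : A → Prop}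

theorem jet_zero [AddCommMonoid M] (φ : A → M) (u : A) : jet X φ 0 u = φ u := rfl

theorem jet_succ [AddCommMonoid M] (φ : A → M) (n : ℕ) (u : A) :
    jet X φ (n + 1) u = jet X φ n u + ∑ j, jet X φ n (X j u) := rfl

theorem jet_jet [AddCommMonoid M] (φ : A → M) (m n : ℕ) (u : A) :
    jet X (jet X φ m) n u = jet X φ (m + n) u := by
  induction n generalizing u with
  | zero => rfl
  | succ n ih => simp only [← add_assoc, jet_succ, ih]

/-- An additive property passes to the jets. -/
theorem jet_ind {B : Type*} [AddCommMonoid M] (hW : ∀ j u, W u → W (X j u)) {φ : A → B → M}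
    {p : (B → M) → Prop} (h0 : p 0) (ha : ∀ f g, p f → p g → p (f + g))
    (h : ∀ u, W u → p (φ u)) (n : ℕ) {u : A} (hu : W u) : p fun y => jet X (φ · y) n u := by
  induction n generalizing u with
  | zero => exact h u hu
  | succ n ih =>
    have e : (fun y => jet X (φ · y) (n + 1) u) = (fun y => jet X (φ · y) n u) +
        ∑ j, fun y => jet X (φ · y) n (X j u) := funext fun y => by
      rw [jet_succ, Pi.add_apply, Finset.sum_apply]
    rw [e]
    exact ha _ _ (ih hu) (Finset.sum_induction _ p ha h0 fun j _ => ih (hW j u hu))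

theorem jet_mono (hW : ∀ j u, W u → W (X j u)) {φ ψ : A → ℝ} (h : ∀ u, W u → φ u ≤ ψ u) (n : ℕ)
    {u : A} (hu : W u) : jet X φ n u ≤ jet X ψ n u := by
  induction n generalizing u with
  | zero => exact h u hu
  | succ n ih => exact add_le_add (ih hu) (Finset.sum_le_sum fun j _ => ih (hW j u hu))

theorem jet_nonneg {φ : A → ℝ} (h : ∀ u, 0 ≤ φ u) (n : ℕ) (u : A) : 0 ≤ jet X φ n u := by
  induction n generalizing u with
  | zero => exact h u
  | succ n ih => exact add_nonneg (ih u) (Finset.sum_nonneg fun j _ => ih _)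

theorem jet_le {φ : A → ℝ} (h : ∀ u, 0 ≤ φ u) {m n : ℕ} (e : m ≤ n) (u : A) :
    jet X φ m u ≤ jet X φ n u := by
  induction e with
  | refl => rfl
  | step _ ih => exact ih.trans (le_add_of_nonneg_right (Finset.sum_nonneg fun j _ =>
      jet_nonneg h _ _))

theorem jet_mul (c : ℝ) (φ : A → ℝ) (n : ℕ) (u : A) :
    jet X (fun u => c * φ u) n u = c * jet X φ n u := by
  induction n generalizing u with
  | zero => rfl
  | succ n ih => simp only [jet_succ, ih, mul_add, Finset.mul_sum]

theorem jet_int {B : Type*} [MeasurableSpace B] {μ : Measure B} (hW : ∀ j u, W u → W (X j u))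
    {φ : A → B → ℝ} (h : ∀ u, W u → Integrable (φ u) μ) (n : ℕ) {u : A} (hu : W u) :
    ∫ y, jet X (φ · y) n u ∂μ = jet X (fun u => ∫ y, φ u y ∂μ) n u := by
  have i : ∀ n u, W u → Integrable (fun y => jet X (φ · y) n u) μ := fun n u hu =>
    jet_ind hW (φ := φ) (p := fun f : B → ℝ => Integrable f μ) (integrable_zero _ _ _)
      (fun _ _ a b => a.add b) h n hu
  induction n generalizing u with
  | zero => rfl
  | succ n ih =>
    simp only [jet_succ]
    rw [integral_add (i n u hu) (integrable_finsetSum _ fun j _ => i n _ (hW j u hu)),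
      integral_finsetSum _ fun j _ => i n _ (hW j u hu), ih hu]
    exact congrArg _ (Finset.sum_congr rfl fun j _ => ih (hW j u hu))

end jet

variable {F : Type*} [NormedAddCommGroup F] [InnerProductSpace ℝ F]

/-- One dimension. -/
theorem one {g : ℝ → F} (hg : ∀ s ∈ Icc (0 : ℝ) 1, ContDiffAt ℝ 1 g s) :
    ENNReal.ofReal (‖g 0‖ ^ 2) ≤
      ∫⁻ s in Icc (0 : ℝ) 1, ENNReal.ofReal (2 * ‖g s‖ ^ 2 + ‖deriv g s‖ ^ 2) := by
  have h := enorm_sub_le_lintegral_deriv_of_contDiffOn_Icc (f := fun s => (1 - s) * ‖g s‖ ^ 2)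
    (fun s hs => ((contDiffAt_const.sub contDiffAt_id).mul
      ((hg s hs).norm_sq ℝ)).contDiffWithinAt) zero_le_one
  simp only [sub_self, zero_mul, sub_zero, one_mul, zero_sub, enorm_neg] at h
  rw [Real.enorm_eq_ofReal (sq_nonneg _)] at h
  refine h.trans (setLIntegral_mono' measurableSet_Icc fun s hs => ?_)
  have d := (((hasDerivAt_id' s).const_sub 1).mul
    ((hg s hs).differentiableAt one_ne_zero).hasDerivAt.norm_sq).deriv
  rw [show deriv (fun s => (1 - s) * ‖g s‖ ^ 2) s = _ from d, ← ofReal_norm,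
    Real.norm_eq_abs]
  refine ENNReal.ofReal_le_ofReal ?_
  have a := abs_le.1 (abs_real_inner_le_norm (g s) (deriv g s))
  have b := sq_nonneg (‖g s‖ - ‖deriv g s‖)
  have c := sq_nonneg ‖g s‖
  have e := sq_nonneg ‖deriv g s‖
  rw [abs_le]
  constructor <;> nlinarith [hs.1, hs.2, mul_nonneg (sub_nonneg.2 hs.2) (sub_nonneg.2 a.1),
    mul_nonneg (sub_nonneg.2 hs.2) (sub_nonneg.2 a.2), mul_nonneg (norm_nonneg (g s))
      (norm_nonneg (deriv g s)), mul_nonneg hs.1 (mul_nonneg (norm_nonneg (g s))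
      (norm_nonneg (deriv g s)))]

variable {E : Type*} [NormedAddCommGroup E] [NormedSpace ℝ E]

/-- The parallelepiped with the corner p and the edges v. -/
def bx {n : ℕ} (p : E) (v : Fin n → E) : Set E :=
  (fun t : Fin n → ℝ => p + ∑ k, t k • v k) '' Icc 0 1

theorem mem_bx {n : ℕ} {p y : E} {v : Fin n → E} :
    y ∈ bx p v ↔ ∃ t : Fin n → ℝ, (∀ k, 0 ≤ t k ∧ t k ≤ 1) ∧ p + ∑ k, t k • v k = y :=
  exists_congr fun _ => and_congr_left' forall_and.symm

theorem bx_cpt {n : ℕ} (p : E) (v : Fin n → E) : IsCompact (bx p v) :=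
  isCompact_Icc.image (by fun_prop)

theorem bx_self {n : ℕ} (p : E) (v : Fin n → E) : p ∈ bx p v :=
  mem_bx.2 ⟨0, fun _ => ⟨le_rfl, zero_le_one⟩, by simp⟩

theorem bx_tail {n : ℕ} (p : E) (v : Fin (n + 1) → E) {s : ℝ} (hs : s ∈ Icc (0 : ℝ) 1) :
    bx (p + s • v 0) (Fin.tail v) ⊆ bx p v := fun y hy => by
  obtain ⟨t, ht, rfl⟩ := mem_bx.1 hy
  exact mem_bx.2 ⟨Fin.cons s t, fun k => Fin.cases hs ht k, by
    simp [Fin.sum_univ_succ, Fin.tail, add_assoc]⟩

variable [MeasurableSpace E] [BorelSpace E]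

theorem lint_cons {n : ℕ} {G : E → ℝ≥0∞} (hG : Measurable G) (p : E) (v : Fin (n + 1) → E) :
    ∫⁻ t : Fin (n + 1) → ℝ, G (p + ∑ k, t k • v k) =
      ∫⁻ s : ℝ, ∫⁻ t : Fin n → ℝ, G (p + s • v 0 + ∑ k, t k • Fin.tail v k) := by
  have m : Measurable fun t : Fin (n + 1) → ℝ => G (p + ∑ k, t k • v k) :=
    hG.comp (Continuous.measurable (by fun_prop))
  rw [← (volume_preserving_piFinSuccAbove (fun _ => ℝ) 0).symm.lintegral_comp m,
    Measure.volume_eq_prod]
  refine (lintegral_prod _ (m.comp (MeasurableEquiv.measurable _)).aemeasurable).trans ?_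
  simp [MeasurableEquiv.piFinSuccAbove_symm_apply, Fin.insertNthEquiv, Fin.sum_univ_succ,
    Fin.tail, add_assoc]

variable {A J : Type*} [Fintype J] {X : J → A → A} {W : A → Prop} {val : A → E → F} {S : Set E}
  {κ : ℝ}

/-- The pointwise square of the jet. -/
def jq (X : J → A → A) (val : A → E → F) (n : ℕ) (u : A) (y : E) : ℝ :=
  jet X (fun u => ‖val u y‖ ^ 2) n u

omit [NormedAddCommGroup E] [NormedSpace ℝ E] [MeasurableSpace E] [BorelSpace E]
  [InnerProductSpace ℝ F] in
theorem jq_nonneg (n : ℕ) (u : A) (y : E) : 0 ≤ jq X val n u y :=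
  jet_nonneg (fun _ => sq_nonneg _) n u

omit [MeasurableSpace E] [BorelSpace E] [NormedSpace ℝ E] [InnerProductSpace ℝ F] in
theorem jq_cont (hW : ∀ j u, W u → W (X j u)) (h : ∀ u, W u → ContinuousOn (val u) S) (n : ℕ)
    {u : A} (hu : W u) : ContinuousOn (jq X val n u) S :=
  jet_ind hW (φ := fun u y => ‖val u y‖ ^ 2) (p := fun f => ContinuousOn f S) continuousOn_const
    (fun _ _ => ContinuousOn.add) (fun u hu => (h u hu).norm.pow 2) n hu

theorem nest (hS : MeasurableSet S) (hκ : 0 ≤ κ) (hW : ∀ j u, W u → W (X j u))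
    (sm : ∀ u, W u → ∀ y ∈ S, ContDiffAt ℝ 1 (val u) y) {n : ℕ} (v : Fin n → E) (p : E)
    (hb : bx p v ⊆ S) (hd : ∀ u, W u → ∀ k, ∀ y ∈ S,
      ‖fderiv ℝ (val u) y (v k)‖ ^ 2 ≤ κ * jq X val 1 u y) {u : A} (hu : W u) :
    ENNReal.ofReal (‖val u p‖ ^ 2) ≤ ENNReal.ofReal (2 + κ) ^ n * ∫⁻ t : Fin n → ℝ,
      S.indicator (fun y => ENNReal.ofReal (jq X val n u y)) (p + ∑ k, t k • v k) := by
  classical
  have mG : ∀ n u, W u → Measurable (S.indicator fun y => ENNReal.ofReal (jq X val n u y)) :=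
    fun n u hu => ContinuousOn.measurable_piecewise (ENNReal.continuous_ofReal.comp_continuousOn
      (jq_cont hW (fun u hu y hy => (sm u hu y hy).continuousAt.continuousWithinAt) n hu))
      continuousOn_const hS
  induction n generalizing p u with
  | zero => simp [indicator_of_mem (hb (bx_self p v)), jq, jet_zero, volume_pi]
  | succ n ih =>
    have hs : ∀ s ∈ Icc (0 : ℝ) 1, p + s • v 0 ∈ S := fun s hs =>
      hb (bx_tail p v hs (bx_self _ _))
    have h1 := one (g := fun s : ℝ => val u (p + s • v 0)) fun s h =>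
      (sm u hu _ (hs s h)).comp s (by fun_prop)
    rw [zero_smul, add_zero] at h1
    rw [lint_cons (mG _ u hu), ← lintegral_const_mul' _ _ (by finiteness)]
    refine h1.trans ((setLIntegral_mono' measurableSet_Icc fun s h => ?_).trans
      (setLIntegral_le_lintegral _ _))
    have i := fun u (hu : W u) => ih (Fin.tail v) (p + s • v 0) ((bx_tail p v h).trans hb)
      (fun u hu k => hd u hu k.succ) hu
    have d : deriv (fun s : ℝ => val u (p + s • v 0)) s = fderiv ℝ (val u) (p + s • v 0) (v 0) := by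
      have := ((sm u hu _ (hs s h)).differentiableAt one_ne_zero).hasFDerivAt.comp_hasDerivAt s
        (((hasDerivAt_id s).smul_const (v 0)).const_add p)
      rw [one_smul] at this
      exact this.deriv
    have mc : ∀ u, W u → Measurable fun t : Fin n → ℝ => S.indicator
        (fun y => ENNReal.ofReal (jq X val n u y)) (p + s • v 0 + ∑ k, t k • Fin.tail v k) :=
      fun u hu => (mG n u hu).comp (Continuous.measurable (by fun_prop))
    calc _ ≤ ENNReal.ofReal ((2 + κ) * jq X val 1 u (p + s • v 0)) := by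
          refine ENNReal.ofReal_le_ofReal ?_
          have a := hd u hu 0 _ (hs s h)
          have b : ‖val u (p + s • v 0)‖ ^ 2 ≤ jq X val 1 u (p + s • v 0) :=
            jet_le (φ := fun u => ‖val u (p + s • v 0)‖ ^ 2) (fun _ => sq_nonneg _) zero_le_one u
          rw [d]; linarith
      _ ≤ _ := by
          rw [ENNReal.ofReal_mul (by linarith), pow_succ', mul_assoc]
          refine mul_le_mul_right ?_ _
          simp only [jq, jet_succ, jet_zero]
          rw [ENNReal.ofReal_add (sq_nonneg _)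
            (Finset.sum_nonneg fun _ _ => sq_nonneg _),
            ENNReal.ofReal_sum_of_nonneg fun _ _ => sq_nonneg _]
          refine (add_le_add (i u hu) (Finset.sum_le_sum fun j _ => i _ (hW j u hu))).trans ?_
          rw [← Finset.mul_sum, ← mul_add, ← lintegral_finsetSum _ fun j _ =>
            mc _ (hW j u hu), ← lintegral_add_left (mc u hu)]
          refine mul_le_mul_right (lintegral_mono fun t => ?_) _
          by_cases c : p + s • v 0 + ∑ k, t k • Fin.tail v k ∈ S
          · simp only [indicator_of_mem c]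
            rw [← ENNReal.ofReal_sum_of_nonneg fun _ _ => jq_nonneg _ _ _,
              ← ENNReal.ofReal_add (jq_nonneg _ _ _) (Finset.sum_nonneg fun _ _ => jq_nonneg _ _ _)]
            exact le_rfl
          · simp [indicator_of_notMem c]

variable [FiniteDimensional ℝ E]

theorem haar_le (μ : Measure E) [μ.IsAddHaarMeasure] {n : ℕ} (b : Basis (Fin n) ℝ E) :
    ∃ c : ℝ, 0 < c ∧ ∀ (v : Fin n → E) (p : E) (G : E → ℝ≥0∞), Measurable G →
      ENNReal.ofReal |b.det v| * ∫⁻ t : Fin n → ℝ, G (p + ∑ k, t k • v k) ≤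
        ENNReal.ofReal c * ∫⁻ y, G y ∂μ := by
  let e := b.equivFunL.symm
  let ν : Measure E := Measure.map e volume
  obtain ⟨c, hc⟩ : ∃ c : NNReal, ν = c • μ := ⟨_, Measure.isAddLeftInvariant_eq_smul ν μ⟩
  refine ⟨c + 1, by positivity, fun v p G hG => ?_⟩
  by_cases h : b.det v = 0
  · simp [h]
  have dt : LinearMap.det (b.constr ℝ v) = b.det v := by
    rw [← LinearMap.det_toMatrix b, b.det_apply]
    congr 1
    ext i j
    simp [LinearMap.toMatrix_apply, Basis.toMatrix_apply]
  have mL : Measurable (b.constr ℝ v) := (b.constr ℝ v).continuous_of_finiteDimensional.measurable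
  have mp : Measurable fun y => G (p + y) := hG.comp (measurable_const_add p)
  have e1 : ∫⁻ t : Fin n → ℝ, G (p + ∑ k, t k • v k) =
      ∫⁻ y, G (p + y) ∂Measure.map (b.constr ℝ v) ν := by
    rw [lintegral_map mp mL]
    refine Eq.trans ?_ (lintegral_map (mp.comp mL) e.continuous.measurable).symm
    have : ∀ a k, b.repr (e a) k = a k := fun a k => congrFun (b.equivFun.apply_symm_apply a) k
    simp [this]
  rw [e1, Measure.map_linearMap_addHaar_eq_smul_addHaar ν (dt ▸ h), dt, lintegral_smul_measure,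
    smul_eq_mul, ← mul_assoc, ← ENNReal.ofReal_mul (abs_nonneg _), ← abs_mul, mul_inv_cancel₀ h,
    abs_one, ENNReal.ofReal_one, one_mul, lintegral_add_left_eq_self, hc,
    lintegral_smul_measure, ENNReal.smul_def, smul_eq_mul]
  refine mul_le_mul_left ?_ _
  rw [← ENNReal.ofReal_coe_nnreal]
  exact ENNReal.ofReal_le_ofReal (by linarith)

/-- The Sobolev inequality on the parallelepiped with the corner p and the edges v. -/
theorem par (μ : Measure E) [μ.IsAddHaarMeasure] {n : ℕ} (b : Basis (Fin n) ℝ E) :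
    ∃ C : ℝ, 0 < C ∧ ∀ {F A J : Type} [NormedAddCommGroup F] [InnerProductSpace ℝ F] [Fintype J]
      (X : J → A → A) (W : A → Prop) (val : A → E → F) (κ : ℝ) (v : Fin n → E) (p : E),
      0 ≤ κ → (∀ j u, W u → W (X j u)) → (∀ u, W u → ∀ y ∈ bx p v, ContDiffAt ℝ 1 (val u) y) →
      (∀ u, W u → ∀ k, ∀ y ∈ bx p v, ‖fderiv ℝ (val u) y (v k)‖ ^ 2 ≤ κ * jq X val 1 u y) →
      ∀ u, W u → |b.det v| * ‖val u p‖ ^ 2 ≤
        C * (2 + κ) ^ n * ∫ y in bx p v, jq X val n u y ∂μ := by
  classical
  obtain ⟨c, hc, h⟩ := haar_le μ b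
  refine ⟨c, hc, fun X W val κ v p hκ hW sm hd u hu => ?_⟩
  have mS := (bx_cpt p v).measurableSet
  have ct := jq_cont (X := X) hW (fun u hu y hy => (sm u hu y hy).continuousAt.continuousWithinAt)
    n hu
  have a := (mul_le_mul_right (nest mS hκ hW sm v p subset_rfl hd hu) (ENNReal.ofReal |b.det v|))
  rw [mul_left_comm] at a
  have d := a.trans (mul_le_mul_right (h v p _ (ContinuousOn.measurable_piecewise
    (ENNReal.continuous_ofReal.comp_continuousOn ct) continuousOn_const mS)) _)
  have k : 0 ≤ 2 + κ := by linarith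
  erw [lintegral_indicator mS] at d
  simp only [Function.comp_def] at d
  rw [← ofReal_integral_eq_lintegral_ofReal (ct.integrableOn_compact (bx_cpt p v))
    (ae_of_all _ fun y => jq_nonneg n u y), ← ENNReal.ofReal_mul (abs_nonneg _),
    ← ENNReal.ofReal_pow k, ← ENNReal.ofReal_mul hc.le, ← ENNReal.ofReal_mul (pow_nonneg k n),
    ENNReal.ofReal_le_ofReal_iff (mul_nonneg (pow_nonneg k n) (mul_nonneg hc.le
      (integral_nonneg fun y => jq_nonneg n u y)))] at d
  linarith

/-- The form with a weight which is at least m on the parallelepiped. -/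
theorem par_wt (μ : Measure E) [μ.IsAddHaarMeasure] {n : ℕ} (b : Basis (Fin n) ℝ E) :
    ∃ C : ℝ, 0 < C ∧ ∀ {F A J : Type} [NormedAddCommGroup F] [InnerProductSpace ℝ F] [Fintype J]
      (X : J → A → A) (W : A → Prop) (val : A → E → F) (κ m : ℝ) (v : Fin n → E) (p : E)
      (w : E → ℝ), 0 ≤ κ → 0 ≤ m → (∀ j u, W u → W (X j u)) →
      (∀ u, W u → ∀ y ∈ bx p v, ContDiffAt ℝ 1 (val u) y) →
      (∀ u, W u → ∀ k, ∀ y ∈ bx p v, ‖fderiv ℝ (val u) y (v k)‖ ^ 2 ≤ κ * jq X val 1 u y) →
      (∀ y, 0 ≤ w y) → (∀ y ∈ bx p v, m ≤ w y) →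
      (∀ u, W u → Integrable (fun y => w y * ‖val u y‖ ^ 2) μ) →
      ∀ u, W u → m * |b.det v| * ‖val u p‖ ^ 2 ≤
        C * (2 + κ) ^ n * jet X (fun u => ∫ y, w y * ‖val u y‖ ^ 2 ∂μ) n u := by
  obtain ⟨C, hC, h⟩ := par μ b
  refine ⟨C, hC, fun X W val κ m v p w hκ hm hW sm hd w0 wm hi u hu => ?_⟩
  have i : Integrable (fun y => w y * jq X val n u y) μ := by
    simpa only [jet_mul, jq] using jet_ind hW (φ := fun u y => w y * ‖val u y‖ ^ 2)
      (p := fun f : E → ℝ => Integrable f μ) (integrable_zero _ _ _) (fun _ _ a b => a.add b) hi n hu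
  have ct := jq_cont (X := X) hW (fun u hu y hy => (sm u hu y hy).continuousAt.continuousWithinAt)
    n hu
  have a : m * ∫ y in bx p v, jq X val n u y ∂μ ≤ ∫ y, w y * jq X val n u y ∂μ := by
    rw [← integral_const_mul]
    refine (setIntegral_mono_on ((ct.integrableOn_compact (bx_cpt p v)).const_mul m)
      i.integrableOn (bx_cpt p v).measurableSet fun y hy =>
        mul_le_mul_of_nonneg_right (wm y hy) (jq_nonneg n u y)).trans
      (setIntegral_le_integral i (ae_of_all _ fun y => mul_nonneg (w0 y) (jq_nonneg n u y)))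
  rw [← jet_int hW hi n hu]
  simp only [jet_mul]
  have k : 0 ≤ C * (2 + κ) ^ n := by positivity
  have := mul_le_mul_of_nonneg_left (h X W val κ v p hκ hW sm hd u hu) hm
  have := mul_le_mul_of_nonneg_left a k
  simp only [jq] at *
  nlinarith

end Vale.Agent.P354XW
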