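import Vale.Agent.P354XW.Mul

/-!
The static estimate for the Teukolsky operator of spin `s = q - 2`, `q ≤ 4`, at frequency zero.
-/

open scoped ContDiff InnerProductSpace
open Set MeasureTheory intervalIntegral
open Vale.Agent.P354BF

namespace Vale.Agent.P354XW

section Defs

variable {S : Type} [NormedAddCommGroup S] [InnerProductSpace ℂ S]

/-- The static Teukolsky operator of spin `s` in ingoing coordinates. -/
noncomputable def P0 (A : Ang S) (s M a : ℝ) (v : ℝ → S) : ℝ → S := Q A (1 - s) (s ^ 2 - s) M a v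

/-- Pairs (radial order, angular order) of total order at most `k`. -/
def Tk (k : ℕ) : Finset (ℕ × ℕ) :=
  (Finset.range (k + 1) ×ˢ Finset.range (k + 1)).filter fun p => p.1 + p.2 ≤ k

theorem mem_Tk {k : ℕ} {p : ℕ × ℕ} : p ∈ Tk k ↔ p.1 + p.2 ≤ k := by
  simp only [Tk, Finset.mem_filter, Finset.mem_product, Finset.mem_range]; omega

/-- The density of the weighted norm of order `k`. -/
noncomputable def Dn (A : Ang S) (k : ℕ) (γ : ℝ) (v : ℝ → S) (r : ℝ) : ℝ :=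
  ∑ p ∈ Tk k, r ^ (γ + 2 * p.1 - 1) * B A p.2 (iteratedDeriv p.1 v r) (iteratedDeriv p.1 v r)

variable {A : Ang S} {v : ℝ → S}

theorem P0_eq {m : ℝ} (h : A.Is) (hv : A.Md m v) (s k M a : ℝ) : P0 A s M a v = A.P s k M a 0 m v := by
  funext r
  simp only [P0, Q, Ang.P, A.lop_apply, Kf, (h.md_deriv hv).2 r]
  push_cast
  module

theorem iter_P0 (h : A.Is) (hv : A.Sm v) (s M a : ℝ) (j : ℕ) :
    iteratedDeriv j (P0 A s M a v) = P0 A (s - j) M a (iteratedDeriv j v) := by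
  induction j with
  | zero => simp
  | succ j ih =>
    rw [iteratedDeriv_succ, ih, P0, deriv_Q h (h.sm_iter hv j), iteratedDeriv_succ, P0]
    congr 1 <;> push_cast <;> ring

theorem Dn_nonneg (h : A.Is) (k : ℕ) (γ : ℝ) (v : ℝ → S) {r : ℝ} (hr : 0 ≤ r) :
    0 ≤ Dn A k γ v r :=
  Finset.sum_nonneg fun _ _ => mul_nonneg (Real.rpow_nonneg hr _) (B_nonneg h _ _)

theorem co_Dn (h : A.Is) (hv : A.Sm v) (k : ℕ) (γ : ℝ) {x y : ℝ} (hx : 0 < x) :
    ContinuousOn (Dn A k γ v) (Icc x y) :=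
  continuousOn_finsetSum _ fun _ _ => co_J h (h.sm_iter hv _) _ _ hx

theorem int_Dn (h : A.Is) (hv : A.Sm v) (k : ℕ) (γ : ℝ) {x y : ℝ} (hx : 0 < x) (hxy : x ≤ y) :
    ∫ r in x..y, Dn A k γ v r = ∑ p ∈ Tk k, J A (γ + 2 * p.1) p.2 (iteratedDeriv p.1 v) x y :=
  integral_finsetSum fun _ _ => ii_J h (h.sm_iter hv _) _ _ hx hxy

theorem int_Dn_mono (h : A.Is) (hv : A.Sm v) (k : ℕ) (γ : ℝ) {x y z : ℝ} (hx : 0 < x)
    (hxy : x ≤ y) (hyz : y ≤ z) : ∫ r in x..y, Dn A k γ v r ≤ ∫ r in x..z, Dn A k γ v r :=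
  integral_mono_interval le_rfl hxy hyz
    ((ae_restrict_iff' measurableSet_Ioc).2 (.of_forall fun _ hr =>
      Dn_nonneg h k γ v (hx.le.trans hr.1.le)))
    ((co_Dn h hv k γ hx).intervalIntegrable_of_Icc (hxy.trans hyz))

theorem J_le (h : A.Is) (hv : A.Sm v) (hs : 6 ≤ A.s ^ 2 + |A.s|) (β : ℝ) (n : ℕ) {x y : ℝ}
    (hx : 0 < x) (hxy : x ≤ y) : J A β n v x y ≤ J A β (n + 1) v x y :=
  integral_mono_on hxy (ii_J h hv _ _ hx hxy) (ii_J h hv _ _ hx hxy) fun r hr =>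
    mul_le_mul_of_nonneg_left (by nlinarith [B_ge h n (v r), B_nonneg h n (v r)])
      (Real.rpow_nonneg (hx.le.trans hr.1) _)

theorem J_sub (h : A.Is) {u : ℝ → S} (hu : A.Sm u) (hv : A.Sm v) (c β : ℝ) (n : ℕ) {x y : ℝ}
    (hx : 0 < x) (hxy : x ≤ y) : J A β n (fun r => u r - (c : ℂ) • v r) x y ≤
      2 * J A β n u x y + 2 * c ^ 2 * J A β n v x y := by
  have i1 := ii_J h hu (β - 1) n hx hxy
  have := ftc4 (c1 := 1) (c2 := -2) (c3 := -(2 * c ^ 2)) (c4 := 0) hxy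
    (fun r _ => hasDerivAt_const r (0 : ℝ)) (ii_J h (hu.sub (hv.cmul c)) (β - 1) n hx hxy) i1
    (ii_J h hv (β - 1) n hx hxy) i1 fun r hr => by
      have k := B_sub_le h n (u r) ((c : ℂ) • v r)
      rw [B_smul_smul] at k
      linear_combination mul_le_mul_of_nonneg_left k (Real.rpow_nonneg (hx.le.trans hr.1) (β - 1))
  simp only [J] at *
  linarith

end Defs

/-- The data of the estimate. -/
structure Dt (κ : ℝ) where
  S : Type
  [i1 : NormedAddCommGroup S]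
  [i2 : InnerProductSpace ℂ S]
  A : Ang S
  (M a x y : ℝ)
  v : ℝ → S
  h : A.Is
  hs : 6 ≤ A.s ^ 2 + |A.s|
  hv : A.Sm v
  ha : |a| ≤ M
  hx : 0 < x
  hM : M ≤ (1 - κ) * x
  hD : De M a x ≤ 0
  hxy : x ≤ y

attribute [instance] Dt.i1 Dt.i2

/-- Domination with a constant which does not depend on the data. -/
def Dom {D : Type*} (G f : D → ℝ) : Prop := ∃ C : ℝ, 0 ≤ C ∧ ∀ d, f d ≤ C * G d

namespace Dom

variable {D : Type*} {G f g : D → ℝ}

theorem of_le (h : Dom G g) (hf : ∀ d, f d ≤ g d) : Dom G f :=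
  let ⟨C, h0, h1⟩ := h; ⟨C, h0, fun d => (hf d).trans (h1 d)⟩

theorem add (h : Dom G f) (h' : Dom G g) : Dom G fun d => f d + g d :=
  let ⟨C, h0, h1⟩ := h; let ⟨C', h0', h1'⟩ := h'
  ⟨C + C', add_nonneg h0 h0', fun d => by linarith [h1 d, h1' d]⟩

theorem smul {c : ℝ} (hc : 0 ≤ c) (h : Dom G f) : Dom G fun d => c * f d :=
  let ⟨C, h0, h1⟩ := h
  ⟨c * C, mul_nonneg hc h0, fun d => by rw [mul_assoc]; exact mul_le_mul_of_nonneg_left (h1 d) hc⟩

theorem cancel {c : ℝ} (hc : 0 < c) (h : Dom G g) (hf : ∀ d, c * f d ≤ g d) : Dom G f :=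
  (h.smul (inv_pos.2 hc).le).of_le fun d => (le_inv_mul_iff₀ hc).2 (hf d)

theorem sum {ι : Type*} {t : Finset ι} {f : ι → D → ℝ} (h : ∀ i ∈ t, Dom G (f i)) :
    Dom G fun d => ∑ i ∈ t, f i d := by
  classical
  induction t using Finset.induction_on with
  | empty => exact ⟨0, le_rfl, fun d => by simp⟩
  | insert i t hi ih =>
    simp only [Finset.sum_insert hi]
    exact (h i (by simp)).add (ih fun j hj => h j (by simp [hj]))

end Dom

section Main

variable {κ : ℝ} (γ s : ℝ)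

/-- The norms of the curve, of the source, and the boundary terms. -/
noncomputable def Dt.n (d : Dt κ) (j n : ℕ) : ℝ :=
  J d.A (γ + 2 * j) n (iteratedDeriv j d.v) d.x d.y
noncomputable def Dt.f (d : Dt κ) (j n : ℕ) : ℝ :=
  J d.A (γ + 2 * j) n (iteratedDeriv j (P0 d.A s d.M d.a d.v)) d.x d.y
noncomputable def Dt.b (d : Dt κ) (j n : ℕ) : ℝ :=
  bd d.A (γ + 2 * j) n (iteratedDeriv j d.v) d.y
noncomputable def Dt.G (k : ℕ) (d : Dt κ) : ℝ :=
  ∑ p ∈ Tk k, d.f γ s p.1 p.2 + ∑ p ∈ Tk (k + 1), d.b γ p.1 p.2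

theorem Dt.n0 (d : Dt κ) (j n : ℕ) : 0 ≤ d.n γ j n := J_nonneg d.h _ _ _ d.hx d.hxy
theorem Dt.f0 (d : Dt κ) (j n : ℕ) : 0 ≤ d.f γ s j n := J_nonneg d.h _ _ _ d.hx d.hxy
theorem Dt.b0 (d : Dt κ) (j n : ℕ) : 0 ≤ d.b γ j n := bd_nonneg d.h _ _ _ (d.hx.trans_le d.hxy)

theorem dom_f {k j n : ℕ} (h : j + n ≤ k) : Dom (Dt.G γ s k) fun d : Dt κ => d.f γ s j n :=
  ⟨1, zero_le_one, fun d => by
    have h1 := Finset.single_le_sum (f := fun p : ℕ × ℕ => d.f γ s p.1 p.2)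
      (fun p _ => d.f0 γ s _ _) (mem_Tk (p := (j, n)).2 h)
    have h2 := Finset.sum_nonneg (s := Tk (k + 1)) fun p _ => d.b0 γ p.1 p.2
    simp only [Dt.G]; linarith⟩

theorem dom_b {k j n : ℕ} (h : j + n ≤ k + 1) : Dom (Dt.G γ s k) fun d : Dt κ => d.b γ j n :=
  ⟨1, zero_le_one, fun d => by
    have h1 := Finset.single_le_sum (f := fun p : ℕ × ℕ => d.b γ p.1 p.2)
      (fun p _ => d.b0 γ _ _) (mem_Tk (p := (j, n)).2 h)
    have h2 := Finset.sum_nonneg (s := Tk k) fun p _ => d.f0 γ s p.1 p.2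
    simp only [Dt.G]; linarith⟩

theorem cast_succ (j : ℕ) : γ + 2 * ((j + 1 : ℕ) : ℝ) = γ + 2 * j + 2 := by push_cast; ring

theorem step {β : ℝ} (hκ : 0 < κ) (h0 : 0 < β) (h1 : β < 10) {q k : ℕ} (i : ℕ) :
    ∀ n, q + i + n ≤ k →
      (Dom (Dt.G (β - 2 * q) (q - 2) k) fun d : Dt κ => d.n (β - 2 * q) (q + i + 1) n) ∧
      Dom (Dt.G (β - 2 * q) (q - 2) k) fun d : Dt κ => d.n (β - 2 * q) (q + i) (n + 1) := by
  have key : ∀ (i n : ℕ) (c : ℝ), q + i + n ≤ k → 0 ≤ c → c ≤ 6 → ∀ g : Dt κ → ℝ,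
      Dom (Dt.G (β - 2 * q) (q - 2) k) g → (∀ d : Dt κ, J d.A (β - 2 * q + 2 * (q + i : ℕ)) n
        (Q d.A (3 + i) c d.M d.a (iteratedDeriv (q + i) d.v)) d.x d.y ≤ g d) →
      ∃ δ : ℝ, 0 < δ ∧ ∃ g', Dom (Dt.G (β - 2 * q) (q - 2) k) g' ∧ ∀ d : Dt κ,
        δ * d.n (β - 2 * q) (q + i + 1) n + (β + 2 * i) * d.n (β - 2 * q) (q + i) (n + 1) ≤
          (β + 2 * i) * c * d.n (β - 2 * q) (q + i) n + g' d := by
    intro i n c hn hc0 hc g hg hg'
    have e : β - 2 * q + 2 * (q + i : ℕ) = β + 2 * i := by push_cast; ring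
    have hi : (0 : ℝ) ≤ i := i.cast_nonneg
    have hδ : 0 < (4 * (3 + i : ℝ) - 2 - (β + 2 * i)) * κ := mul_pos (by linarith) hκ
    refine ⟨_, half_pos hδ, _, ((hg.smul (div_pos two_pos hδ).le).add
      (dom_b _ _ (j := q + i + 1) (n := n) (by omega))).add
      (dom_b _ _ (j := q + i) (n := n + 1) (by omega)), fun d => ?_⟩
    have k1 := mul d.h (d.h.sm_iter d.hv (q + i)) n (k := 3 + i) (β := β + 2 * i) hκ d.ha d.hx
      d.hM d.hD d.hxy (by linarith) (by linarith) hc0 (hc.trans d.hs)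
    have k2 := mul_le_mul_of_nonneg_left (hg' d) (div_pos two_pos hδ).le
    simp only [Dt.n, Dt.b, cast_succ, e, iteratedDeriv_succ] at *
    linarith
  have hQ : ∀ (i : ℕ) (d : Dt κ), iteratedDeriv (q + i) (P0 d.A (q - 2) d.M d.a d.v) =
      Q d.A (3 + i) ((2 + i) * (3 + i)) d.M d.a (iteratedDeriv (q + i) d.v) := fun i d => by
    rw [iter_P0 d.h d.hv, P0]
    congr 1 <;> push_cast <;> ring
  induction i with
  | zero =>
    intro n hn
    obtain ⟨δ, hδ, g, hg, k1⟩ := key 0 n 6 hn (by norm_num) le_rfl _ (dom_f _ _ hn) fun d => by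
      rw [Dt.f, hQ]; norm_num
    simp only [Nat.cast_zero, mul_zero, add_zero] at k1 ⊢
    have d1 : Dom (Dt.G (β - 2 * q) (q - 2) k) fun d : Dt κ => d.n (β - 2 * q) (q + 1) n :=
      hg.cancel hδ fun d => by
        have k2 : 6 * d.n (β - 2 * q) q n ≤ d.n (β - 2 * q) q (n + 1) := by
          simp only [Dt.n, J, ← intervalIntegral.integral_const_mul]
          refine integral_mono_on d.hxy
            ((ii_J d.h (d.h.sm_iter d.hv q) _ _ d.hx d.hxy).const_mul _)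
            (ii_J d.h (d.h.sm_iter d.hv q) _ _ d.hx d.hxy) fun r hr => ?_
          rw [mul_left_comm]
          exact mul_le_mul_of_nonneg_left ((mul_le_mul_of_nonneg_right d.hs
            (B_nonneg d.h _ _)).trans (B_ge d.h _ _)) (Real.rpow_nonneg (d.hx.le.trans hr.1) _)
        nlinarith [k1 d]
    have d2 : Dom (Dt.G (β - 2 * q) (q - 2) k) fun d : Dt κ => d.n (β - 2 * q) q n :=
      ((d1.smul (div_pos two_pos h0).le).add (dom_b _ _ (j := q) (n := n) (by omega))).cancel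
        (half_pos h0) fun d => by
          have e : β - 2 * q + 2 * q = β := by ring
          simpa only [Dt.n, Dt.b, cast_succ, e, iteratedDeriv_succ] using
            hardy d.h (d.h.sm_iter d.hv q) n h0 d.hx d.hxy
    exact ⟨d1, ((d2.smul (by positivity : 0 ≤ β * 6)).add hg).cancel h0 fun d => by
      nlinarith [k1 d, d.n0 (β - 2 * q) (q + 1) n]⟩
  | succ i ih =>
    intro n hn
    obtain ⟨δ, hδ, g, hg, k1⟩ := key (i + 1) n 0 hn le_rfl (by norm_num) _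
      (((dom_f _ _ hn).smul zero_le_two).add ((ih n (by omega)).1.smul
        (by positivity : 0 ≤ 2 * ((2 + (i + 1 : ℕ) : ℝ) * (3 + (i + 1 : ℕ))) ^ 2))) fun d => by
      have hv := d.h.sm_iter d.hv (q + (i + 1))
      refine le_of_eq_of_le ?_ (J_sub d.h (d.h.sm_iter (sm_Q d.h d.hv _ _ _ _) _) hv _ _ n
        d.hx d.hxy)
      congr 1
      funext r
      have := congrFun (hQ (i + 1) d) r
      simp only [P0] at this
      simp only [this, Q, Complex.ofReal_zero, zero_smul, add_zero, add_sub_cancel_right]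
    have hi : (0 : ℝ) < β + 2 * (i + 1 : ℕ) := by positivity
    exact ⟨hg.cancel hδ fun d => by nlinarith [k1 d, d.n0 (β - 2 * q) (q + (i + 1)) (n + 1)],
      hg.cancel hi fun d => by nlinarith [k1 d, d.n0 (β - 2 * q) (q + (i + 1) + 1) n]⟩

theorem all {β : ℝ} (hκ : 0 < κ) (h0 : 0 < β) (h1 : β < 10) {q k : ℕ} (hq : q ≤ 4) (hk : q ≤ k)
    (i : ℕ) : ∀ j, q ≤ j + i → ∀ n, j + n ≤ k + 1 →
      Dom (Dt.G (β - 2 * q) (q - 2) k) fun d : Dt κ => d.n (β - 2 * q) j n := by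
  have up : ∀ j n, (Dom (Dt.G (β - 2 * q) (q - 2) k) fun d : Dt κ => d.n (β - 2 * q) j (n + 1)) →
      Dom (Dt.G (β - 2 * q) (q - 2) k) fun d : Dt κ => d.n (β - 2 * q) j n := fun j n h =>
    h.of_le fun d => J_le d.h (d.h.sm_iter d.hv j) d.hs _ n d.hx d.hxy
  induction i with
  | zero =>
    intro j hj n hn
    obtain ⟨i, rfl⟩ := Nat.exists_eq_add_of_le hj
    rcases n with _ | n
    · rcases i with _ | i
      · exact up _ _ (step hκ h0 h1 0 0 (by omega)).2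
      · exact (step hκ h0 h1 i 0 (by omega)).1
    · exact (step hκ h0 h1 i n (by omega)).2
  | succ i ih =>
    intro j hj n hn
    by_cases hj' : q ≤ j + i
    · exact ih j hj' n hn
    have key : ∀ n, j + (n + 2) ≤ k + 1 →
        Dom (Dt.G (β - 2 * q) (q - 2) k) fun d : Dt κ => d.n (β - 2 * q) j (n + 2) := by
      intro n hn
      refine ((((ih (j + 1 + 1) (by omega) n (by omega)).smul (by norm_num : (0 : ℝ) ≤ 24)).add
        ((ih (j + 1) (by omega) (n + 1) (by omega)).smul (by norm_num : (0 : ℝ) ≤ 112))).add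
        ((dom_f _ _ (j := j) (n := n) (by omega)).smul (by norm_num : (0 : ℝ) ≤ 6))).of_le
        fun d => ?_
      obtain ⟨t, rfl⟩ : ∃ t, q = j + t + 1 := ⟨q - j - 1, by omega⟩
      have ht : t = 0 ∨ t = 1 ∨ t = 2 ∨ t = 3 := by omega
      have e : ((j + t + 1 : ℕ) : ℝ) - 2 - j = t - 1 := by push_cast; ring
      have hM : d.M ≤ d.x := by nlinarith [d.hM, d.hx]
      simp only [Dt.n, Dt.f, cast_succ, iteratedDeriv_succ, iter_P0 d.h d.hv, e]
      refine recov d.h (d.h.sm_iter d.hv j) n d.ha d.hx hM d.hxy ?_ ?_ ?_ d.hs <;>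
        rcases ht with rfl | rfl | rfl | rfl <;> norm_num
    rcases n with _ | _ | n
    · exact up _ _ (up _ _ (key 0 (by omega)))
    · exact up _ _ (key 0 (by omega))
    · exact key n hn

end Main

/-- The static estimate. -/
theorem static {q k : ℕ} (hq : q ≤ 4) (hk : q ≤ k) {β κ : ℝ} (h0 : 0 < β) (h1 : β < 10)
    (hκ : 0 < κ) : ∃ C : ℝ, 0 ≤ C ∧ ∀ (S : Type) [NormedAddCommGroup S] [InnerProductSpace ℂ S]
      (A : Ang S), A.Is → 6 ≤ A.s ^ 2 + |A.s| → ∀ M a r0 R : ℝ, |a| ≤ M → 0 < r0 →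
      M ≤ (1 - κ) * r0 → De M a r0 ≤ 0 → r0 ≤ R → ∀ v : ℝ → S, A.Sm v →
      ∫ r in r0..R, Dn A (k + 1) (β - 2 * q) v r ≤
        C * ((∫ r in r0..2 * R, Dn A k (β - 2 * q) (P0 A (q - 2) M a v) r) +
          ∫ r in R..2 * R, Dn A (k + 1) (β - 2 * q) v r) := by
  obtain ⟨C, hC, H⟩ := Dom.sum (t := Tk (k + 1)) fun p hp =>
    all hκ h0 h1 hq hk q p.1 (by omega) p.2 (mem_Tk.1 hp)
  refine ⟨2 * C, by positivity, fun S _ _ A h hs M a x R ha hx hM hD hR v hv => ?_⟩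
  have hR0 := hx.trans_le hR
  have hR2 : R ≤ 2 * R := by linarith
  have hc := co_Dn h hv (k + 1) (β - 2 * q) (y := 2 * R) hR0
  obtain ⟨y, hy, hmin⟩ := isCompact_Icc.exists_isMinOn (nonempty_Icc.2 hR2) hc
  have hy0 := hR0.trans_le hy.1
  have hP : A.Sm (P0 A (q - 2) M a v) := sm_Q h hv _ _ _ _
  have k1 := H ⟨S, A, M, a, x, y, v, h, hs, hv, ha, hx, hM, hD, hR.trans hy.1⟩
  simp only [Dt.G, Dt.n, Dt.f, Dt.b] at k1
  rw [← int_Dn h hv _ _ hx (hR.trans hy.1), ← int_Dn h hP _ _ hx (hR.trans hy.1)] at k1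
  have k2 : ∑ p ∈ Tk (k + 1), bd A (β - 2 * q + 2 * p.1) p.2 (iteratedDeriv p.1 v) y =
      y * Dn A (k + 1) (β - 2 * q) v y := by
    rw [Dn, Finset.mul_sum]
    exact Finset.sum_congr rfl fun p _ => by rw [bd, rp_succ hy0]; ring
  have k3 := integral_mono_on hR2 intervalIntegrable_const (hc.intervalIntegrable_of_Icc hR2)
    (μ := volume) fun r hr => hmin hr
  rw [intervalIntegral.integral_const, smul_eq_mul] at k3
  have k4 := int_Dn_mono h hv (k + 1) (β - 2 * q) hx hR hy.1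
  have k5 := int_Dn_mono h hP k (β - 2 * q) hx (hR.trans hy.1) hy.2
  have k6 : 0 ≤ ∫ r in x..2 * R, Dn A k (β - 2 * q) (P0 A (q - 2) M a v) r :=
    integral_nonneg (hR.trans hR2) fun r hr => Dn_nonneg h _ _ _ (hx.le.trans hr.1)
  have k7 := mul_le_mul_of_nonneg_right hy.2 (Dn_nonneg h (k + 1) (β - 2 * q) v hy0.le)
  rw [k2] at k1
  refine k4.trans (k1.trans ?_)
  rw [mul_comm 2 C, mul_assoc]
  exact mul_le_mul_of_nonneg_left (by linarith) hC

end Vale.Agent.P354XW
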